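import Crest.Agent.Lib.ODEFlow

-- ▼ part N207/B/Flow1
section

/-!
# Row 207, block B FLOW (helper69; universe-polymorphic port of R281/Flo*_222), part 1 (helper222): integral curves of time-dependent vector fields

* `TVF C`        : smooth time-dependent vector field, read in the real charts `C : RCh V X`
* `TVF.IC`       : integral curves, `ic_of_chart`
* `exists_local` : local existence with a uniform time
* `ic_unique`    : uniqueness
-/

set_option autoImplicit false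
set_option linter.unusedSectionVars false

open Set Filter Topology
open scoped ContDiff

noncomputable section

namespace Crest.Agent.N207.B.Fl

open Crest.Agent.Lib.ODEFlow

universe u

/-- a topological space with smooth real charts -/
structure RCh (V : Type) (X : Type u) [NormedAddCommGroup V] [NormedSpace ℝ V] [TopologicalSpace X] where
  ι : Type u
  e : ι → OpenPartialHomeomorph X V
  cover : ∀ x, ∃ i, x ∈ (e i).source
  sm : ∀ i j, ContDiffOn ℝ ∞ (fun z => e j ((e i).symm z))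
    {z | z ∈ (e i).target ∧ (e i).symm z ∈ (e j).source}

variable {V : Type} {X : Type u} [NormedAddCommGroup V] [NormedSpace ℝ V] [TopologicalSpace X]

namespace RCh

variable (C : RCh V X)

/-- the overlap of the charts `i`, `j`, seen in the chart `i` -/
def ov (i j : C.ι) : Set V := {z | z ∈ (C.e i).target ∧ (C.e i).symm z ∈ (C.e j).source}

/-- the transition map -/
def t (i j : C.ι) (z : V) : V := C.e j ((C.e i).symm z)

variable {C}

theorem isOpen_ov (i j : C.ι) : IsOpen (C.ov i j) :=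
  (C.e i).isOpen_inter_preimage_symm (C.e j).open_source



theorem t_smooth (i j : C.ι) : ContDiffOn ℝ ∞ (C.t i j) (C.ov i j) := C.sm i j

theorem t_diff {i j : C.ι} {z : V} (hz : z ∈ C.ov i j) : DifferentiableAt ℝ (C.t i j) z :=
  ((t_smooth i j).contDiffAt ((isOpen_ov i j).mem_nhds hz)).differentiableAt (by simp)



end RCh

/-- A smooth time-dependent vector field, read in the charts: `b i (t, z)`. -/
structure TVF (C : RCh V X) where
  b : C.ι → ℝ × V → V
  sm : ∀ i, ContDiffOn ℝ ∞ (b i) (univ ×ˢ (C.e i).target)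
  tr : ∀ i j, ∀ t, ∀ z ∈ C.ov i j, b j (t, C.t i j z) = fderiv ℝ (C.t i j) z (b i (t, z))

namespace TVF

variable {C : RCh V X} (B : TVF C)

/-- the domain of the suspended field -/
def U (_B : TVF C) (i : C.ι) : Set (ℝ × V) := univ ×ˢ (C.e i).target

theorem mem_U {i : C.ι} {p : ℝ × V} : p ∈ B.U i ↔ p.2 ∈ (C.e i).target := by
  simp [U]

theorem isOpen_U (i : C.ι) : IsOpen (B.U i) := isOpen_univ.prod (C.e i).open_target

/-- the suspended field -/
def vt (i : C.ι) (p : ℝ × V) : ℝ × V := (1, B.b i p)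

theorem contDiffOn_vt (i : C.ι) : ContDiffOn ℝ ∞ (B.vt i) (B.U i) :=
  contDiffOn_const.prodMk (B.sm i)

theorem contDiffOn_vt1 (i : C.ι) : ContDiffOn ℝ 1 (B.vt i) (B.U i) :=
  (B.contDiffOn_vt i).of_le (by simp)

/-- `γ` is an integral curve on `J` -/
def IC (γ : ℝ → X) (J : Set ℝ) : Prop :=
  ∀ t ∈ J, ContinuousAt γ t ∧ ∀ i, γ t ∈ (C.e i).source →
    HasDerivAt (fun r => C.e i (γ r)) (B.b i (t, C.e i (γ t))) t

variable {B}

theorem IC.mono {γ : ℝ → X} {J J' : Set ℝ} (h : B.IC γ J) (hJ : J' ⊆ J) : B.IC γ J' :=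
  fun t ht => h t (hJ ht)

theorem IC.congr {γ γ' : ℝ → X} {J : Set ℝ} (h : B.IC γ J) (hJ : IsOpen J)
    (he : ∀ t ∈ J, γ' t = γ t) : B.IC γ' J := by
  intro t ht
  have h1 : γ' =ᶠ[𝓝 t] γ := by
    filter_upwards [hJ.mem_nhds ht] with r hr using he r hr
  refine ⟨(h t ht).1.congr h1.symm, fun i hi => ?_⟩
  rw [he t ht] at hi ⊢
  refine ((h t ht).2 i hi).congr_of_eventuallyEq ?_
  filter_upwards [h1] with r hr
  rw [hr]

/-- it is enough to check the equation in one chart at each point -/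
theorem ic_of_chart {γ : ℝ → X} {t : ℝ} (hc : ContinuousAt γ t) {i : C.ι}
    (hi : γ t ∈ (C.e i).source)
    (hd : HasDerivAt (fun r => C.e i (γ r)) (B.b i (t, C.e i (γ t))) t) (j : C.ι)
    (hj : γ t ∈ (C.e j).source) :
    HasDerivAt (fun r => C.e j (γ r)) (B.b j (t, C.e j (γ t))) t := by
  have hz : C.e i (γ t) ∈ C.ov i j := ⟨(C.e i).map_source hi, by rwa [(C.e i).left_inv hi]⟩
  have h1 : HasFDerivAt (C.t i j) (fderiv ℝ (C.t i j) (C.e i (γ t))) (C.e i (γ t)) :=
    (RCh.t_diff hz).hasFDerivAt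
  have h2 := h1.comp_hasDerivAt t hd
  have h3 : C.t i j (C.e i (γ t)) = C.e j (γ t) := by
    show C.e j ((C.e i).symm (C.e i (γ t))) = _
    rw [(C.e i).left_inv hi]
  rw [← B.tr i j t _ hz, h3] at h2
  refine h2.congr_of_eventuallyEq ?_
  filter_upwards [hc.eventually ((C.e i).open_source.mem_nhds hi)] with r hr
  show C.e j (γ r) = C.e j ((C.e i).symm (C.e i (γ r)))
  rw [(C.e i).left_inv hr]

theorem eq_of_hasDerivAt_zero {F : Type*} [NormedAddCommGroup F] [NormedSpace ℝ F] {f : ℝ → F}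
    {a b : ℝ} (hf : ∀ s ∈ uIcc a b, HasDerivAt f 0 s) : f b = f a := by
  have h := (convex_uIcc a b).norm_image_sub_le_of_norm_hasDerivWithin_le (C := 0)
    (f := f) (f' := fun _ => (0 : F)) (fun s hs => (hf s hs).hasDerivWithinAt) (by simp)
    (left_mem_uIcc (a := a) (b := b)) (right_mem_uIcc (a := a) (b := b))
  simp only [zero_mul] at h
  exact sub_eq_zero.1 (norm_le_zero_iff.1 h)

variable [CompleteSpace V]

variable (B) in
/-- the local flow in the chart `i` -/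
def lf (i : C.ι) (p : (ℝ × V) × ℝ) : ℝ × V := flow (B.vt i) (B.U i) p

variable (B) in
/-- the domain of the local flow in the chart `i` -/
def ld (i : C.ι) : Set ((ℝ × V) × ℝ) := dom (B.vt i) (B.U i)

theorem isOpen_ld (i : C.ι) : IsOpen (B.ld i) := isOpen_dom (B.isOpen_U i) (B.contDiffOn_vt1 i)

theorem lf_mem {i : C.ι} {p : (ℝ × V) × ℝ} (hp : p ∈ B.ld i) : (B.lf i p).2 ∈ (C.e i).target :=
  B.mem_U.1 (flow_mem (B.isOpen_U i) (B.contDiffOn_vt1 i) hp)

theorem hasDerivAt_lf {i : C.ι} {p : ℝ × V} {l : ℝ} (hp : (p, l) ∈ B.ld i) :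
    HasDerivAt (fun s => B.lf i (p, s)) (B.vt i (B.lf i (p, l))) l :=
  hasDerivAt_flow (B.isOpen_U i) (B.contDiffOn_vt1 i) hp

theorem mem_ld_uIcc {i : C.ι} {p : ℝ × V} {l s : ℝ} (hp : (p, l) ∈ B.ld i) (hs : s ∈ uIcc 0 l) :
    (p, s) ∈ B.ld i := mem_dom_of_uIcc hp hs

theorem lf_zero {i : C.ι} {p : ℝ × V} (hp : p.2 ∈ (C.e i).target) : B.lf i (p, 0) = p :=
  flow_zero (B.isOpen_U i) (B.contDiffOn_vt1 i) (B.mem_U.2 hp)

theorem lf_fst {i : C.ι} {p : ℝ × V} {l : ℝ} (hp : (p, l) ∈ B.ld i) :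
    (B.lf i (p, l)).1 = p.1 + l := by
  have h := eq_of_hasDerivAt_zero (f := fun s => (B.lf i (p, s)).1 - s) (a := 0) (b := l) ?_
  · have h0 : B.lf i (p, 0) = p := by
      refine flow_zero (B.isOpen_U i) (B.contDiffOn_vt1 i) ?_
      exact mem_of_mem_dom (p := (p, l)) hp
    simp only [h0, sub_zero] at h
    linarith
  · intro s hs
    have h1 := hasDerivAt_lf (mem_ld_uIcc hp hs)
    have h2 : HasDerivAt (fun s => (B.lf i (p, s)).1) (B.vt i (B.lf i (p, s))).1 s :=
      (ContinuousLinearMap.fst ℝ ℝ V).hasFDerivAt.comp_hasDerivAt s h1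
    have h3 : HasDerivAt (fun s => (B.lf i (p, s)).1 - s) ((B.vt i (B.lf i (p, s))).1 - 1) s :=
      h2.sub (hasDerivAt_id s)
    simpa [vt] using h3

/-- local existence with a uniform time -/
theorem exists_local (B : TVF C) (s₀ : ℝ) {x₀ : X} {i : C.ι} (hi : x₀ ∈ (C.e i).source) :
    ∃ ε > (0 : ℝ), ∃ W : Set (ℝ × V), IsOpen W ∧ (s₀, C.e i x₀) ∈ W ∧ W ⊆ B.U i ∧
      ∀ p ∈ W, ∀ l, |l| < ε → (p, l) ∈ B.ld i := by
  have hK : ({(s₀, C.e i x₀)} : Set (ℝ × V)) ⊆ B.U i := by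
    rintro _ rfl
    exact B.mem_U.2 ((C.e i).map_source hi)
  obtain ⟨ε, hε, W, hW, hKW, h⟩ := exists_uniform_time (B.isOpen_U i) (B.contDiffOn_vt1 i)
    (isCompact_singleton (x := (s₀, C.e i x₀))) hK
  refine ⟨ε, hε, W ∩ B.U i, hW.inter (B.isOpen_U i), ⟨hKW (mem_singleton _), hK (mem_singleton _)⟩,
    inter_subset_right, fun p hp l hl => h p hp.1 l hl⟩

/-- the integral curve given by the local flow -/
theorem ic_lf {i : C.ι} {s : ℝ} {z : V} {a c : ℝ}
    (h : ∀ r ∈ Ioo a c, ((s, z), r - s) ∈ B.ld i) :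
    B.IC (fun r => (C.e i).symm (B.lf i ((s, z), r - s)).2) (Ioo a c) := by
  intro r hr
  have h0 := h r hr
  have h1 : HasDerivAt (fun r => B.lf i ((s, z), r - s)) (B.vt i (B.lf i ((s, z), r - s))) r := by
    have := (hasDerivAt_lf h0).scomp r ((hasDerivAt_id r).sub_const s)
    simpa [Function.comp_def] using this
  have h2 : HasDerivAt (fun r => (B.lf i ((s, z), r - s)).2)
      (B.vt i (B.lf i ((s, z), r - s))).2 r :=
    (ContinuousLinearMap.snd ℝ ℝ V).hasFDerivAt.comp_hasDerivAt r h1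
  have ht : (B.lf i ((s, z), r - s)).2 ∈ (C.e i).target := lf_mem h0
  have hc : ContinuousAt (fun r => (C.e i).symm (B.lf i ((s, z), r - s)).2) r :=
    ContinuousAt.comp (f := fun r => (B.lf i ((s, z), r - s)).2) (g := (C.e i).symm)
      ((C.e i).continuousAt_symm ht) h2.continuousAt
  refine ⟨hc, fun j hj => ic_of_chart hc (i := i) ((C.e i).map_target ht) ?_ j hj⟩
  have h3 : (B.vt i (B.lf i ((s, z), r - s))).2 =
      B.b i (r, C.e i ((C.e i).symm (B.lf i ((s, z), r - s)).2)) := by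
    rw [(C.e i).right_inv ht]
    have h4 : B.lf i ((s, z), r - s) = (r, (B.lf i ((s, z), r - s)).2) := by
      refine Prod.ext ?_ rfl
      rw [lf_fst h0]
      simp
    show B.b i (B.lf i ((s, z), r - s)) = _
    rw [← h4]
  rw [← h3]
  refine h2.congr_of_eventuallyEq ?_
  have hJ : ∀ᶠ r' in 𝓝 r, r' ∈ Ioo a c := isOpen_Ioo.mem_nhds hr
  filter_upwards [hJ] with r' hr'
  exact (C.e i).right_inv (lf_mem (h r' hr'))

/-- two integral curves with the same value at `t` agree near `t` -/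
theorem ic_eventuallyEq {γ₁ γ₂ : ℝ → X} {J : Set ℝ} (hJ : IsOpen J) (h₁ : B.IC γ₁ J)
    (h₂ : B.IC γ₂ J) {t : ℝ} (ht : t ∈ J) (he : γ₁ t = γ₂ t) : γ₁ =ᶠ[𝓝 t] γ₂ := by
  obtain ⟨i, hi⟩ := C.cover (γ₁ t)
  have hi2 : γ₂ t ∈ (C.e i).source := he ▸ hi
  have hev : ∀ᶠ r in 𝓝 t, r ∈ J ∧ γ₁ r ∈ (C.e i).source ∧ γ₂ r ∈ (C.e i).source := by
    filter_upwards [hJ.mem_nhds ht, (h₁ t ht).1.eventually ((C.e i).open_source.mem_nhds hi),
      (h₂ t ht).1.eventually ((C.e i).open_source.mem_nhds hi2)] with r a b c using ⟨a, b, c⟩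
  obtain ⟨δ, hδ, hb⟩ := Metric.eventually_nhds_iff.1 hev
  refine Metric.eventually_nhds_iff.2 ⟨δ, hδ, fun r hr => ?_⟩
  have key : ∀ γ : ℝ → X, (∀ r, dist r t < δ → r ∈ J ∧ γ r ∈ (C.e i).source) → B.IC γ J →
      flow (B.vt i) (B.U i) ((t, C.e i (γ t)), r - t) = (r, C.e i (γ r)) := by
    intro γ hγ hic
    have h3 := flow_of_integralCurve' (B.isOpen_U i) (B.contDiffOn_vt1 i)
      (c := fun u => (t + u, C.e i (γ (t + u)))) (x := (t, C.e i (γ t))) (l := r - t) (by simp)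
      ?_ ?_
    · rw [h3.2]
      simp
    · intro u hu
      have hu' : dist (t + u) t < δ := by
        rw [Real.dist_eq] at hr ⊢
        have : |u| ≤ |r - t| := by
          have := abs_sub_left_of_mem_uIcc hu
          simpa using this
        simpa using this.trans_lt hr
      exact B.mem_U.2 ((C.e i).map_source (hγ _ hu').2)
    · intro u hu
      have hu' : dist (t + u) t < δ := by
        rw [Real.dist_eq] at hr ⊢
        have : |u| ≤ |r - t| := by
          have := abs_sub_left_of_mem_uIcc hu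
          simpa using this
        simpa using this.trans_lt hr
      have h4 := (hic (t + u) (hγ _ hu').1).2 i (hγ _ hu').2
      have h5 : HasDerivAt (fun u => t + u) 1 u := (hasDerivAt_id u).const_add t
      have h6 := h4.scomp u h5
      rw [one_smul] at h6
      exact h5.prodMk h6
  have k1 := key γ₁ (fun r hr => ⟨(hb hr).1, (hb hr).2.1⟩) h₁
  have k2 := key γ₂ (fun r hr => ⟨(hb hr).1, (hb hr).2.2⟩) h₂
  rw [he, k2] at k1
  have k3 : C.e i (γ₂ r) = C.e i (γ₁ r) := congrArg Prod.snd k1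
  exact ((C.e i).injOn (hb hr).2.1 (hb hr).2.2 k3.symm)

/-- uniqueness of integral curves -/
theorem ic_unique [T2Space X] {γ₁ γ₂ : ℝ → X} {J : Set ℝ} (hJ : IsOpen J) (hJc : IsPreconnected J)
    (h₁ : B.IC γ₁ J) (h₂ : B.IC γ₂ J) {t : ℝ} (ht : t ∈ J) (he : γ₁ t = γ₂ t) :
    ∀ r ∈ J, γ₁ r = γ₂ r := by
  have hu : IsOpen {r | γ₁ =ᶠ[𝓝 r] γ₂} := isOpen_setOfPred_eventually_nhds
  have hsub : J ⊆ {r | γ₁ =ᶠ[𝓝 r] γ₂} := by
    refine hJc.subset_of_closure_inter_subset hu ⟨t, ht, ic_eventuallyEq hJ h₁ h₂ ht he⟩ ?_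
    rintro r ⟨hr, hrJ⟩
    refine ic_eventuallyEq hJ h₁ h₂ hrJ ?_
    by_contra hne
    obtain ⟨A, A', hA, hA', hxA, hxA', hd⟩ := t2_separation hne
    have h3 : ∀ᶠ r' in 𝓝 r, γ₁ r' ∈ A ∧ γ₂ r' ∈ A' :=
      ((h₁ r hrJ).1.eventually (hA.mem_nhds hxA)).and ((h₂ r hrJ).1.eventually (hA'.mem_nhds hxA'))
    obtain ⟨r', hr'1, hr'2⟩ := (mem_closure_iff_nhds.1 hr _ h3)
    have h4 : γ₁ r' = γ₂ r' := Filter.EventuallyEq.eq_of_nhds hr'2
    exact (Set.disjoint_left.1 hd) hr'1.1 (h4 ▸ hr'1.2)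
  intro r hr
  exact Filter.EventuallyEq.eq_of_nhds (hsub hr)

end TVF

end Crest.Agent.N207.B.Fl

end
end

-- ▼ part N207/B/Flow2
section

/-!
# Row 207, block B FLOW (helper69; universe-polymorphic port of R281/Flo*_222), part 2 (helper222): the global flow of a time-dependent vector field on a
compact space with real charts

* `TVF.Fl B s t x`  : position at time `t` of the integral curve through `x` at time `s`
* `Fl_self`, `Fl_ic`, `Fl_unique`, `Fl_comp`
-/

set_option autoImplicit false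
set_option linter.unusedSectionVars false

open Set Filter Topology
open scoped ContDiff

noncomputable section

namespace Crest.Agent.N207.B.Fl

open Crest.Agent.Lib.ODEFlow

universe u

variable {V : Type} {X : Type u} [NormedAddCommGroup V] [NormedSpace ℝ V] [TopologicalSpace X]
  [CompleteSpace V]

namespace TVF

variable {C : RCh V X} {B : TVF C}

variable (B) in
/-- the local flow exists for the time `ε` near `p = (s, x)` -/
def Good (ε : ℝ) (p : ℝ × X) : Prop :=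
  ∃ i, p.2 ∈ (C.e i).source ∧ ∃ W : Set (ℝ × V), IsOpen W ∧ (p.1, C.e i p.2) ∈ W ∧ W ⊆ B.U i ∧
    ∀ q ∈ W, ∀ l, |l| < ε → (q, l) ∈ B.ld i

theorem Good.mono {ε ε' : ℝ} {p : ℝ × X} (h : B.Good ε p) (he : ε' ≤ ε) : B.Good ε' p := by
  obtain ⟨i, hi, W, hW, hp, hU, h⟩ := h
  exact ⟨i, hi, W, hW, hp, hU, fun q hq l hl => h q hq l (hl.trans_le he)⟩

/-- uniform time -/
theorem exists_good (B : TVF C) [CompactSpace X] (T : ℝ) :
    ∃ ε > (0 : ℝ), ∀ s ∈ Icc (-T) T, ∀ x : X, B.Good ε (s, x) := by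
  have hK : IsCompact (Icc (-T) T ×ˢ (univ : Set X)) := isCompact_Icc.prod isCompact_univ
  have := hK.induction_on (p := fun S => ∃ ε > (0 : ℝ), ∀ p ∈ S, B.Good ε p)
    ⟨1, one_pos, fun p hp => absurd hp (notMem_empty p)⟩
    (fun S S' h ⟨ε, he, hh⟩ => ⟨ε, he, fun p hp => hh p (h hp)⟩)
    (fun S S' ⟨ε, he, hh⟩ ⟨ε', he', hh'⟩ => ⟨min ε ε', lt_min he he', by
      rintro p (hp | hp)
      · exact (hh p hp).mono (min_le_left _ _)
      · exact (hh' p hp).mono (min_le_right _ _)⟩)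
    ?_
  · obtain ⟨ε, he, h⟩ := this
    exact ⟨ε, he, fun s hs x => h (s, x) ⟨hs, mem_univ _⟩⟩
  · rintro ⟨s₀, x₀⟩ -
    obtain ⟨i, hi⟩ := C.cover x₀
    obtain ⟨ε, he, W, hW, hp, hU, h⟩ := exists_local B s₀ hi
    have hN : {p : ℝ × X | p.2 ∈ (C.e i).source ∧ (p.1, C.e i p.2) ∈ W} ∈ 𝓝 (s₀, x₀) := by
      have h1 : ContinuousAt (fun p : ℝ × X => (p.1, C.e i p.2)) (s₀, x₀) :=
        continuousAt_fst.prodMk (ContinuousAt.comp (f := fun p : ℝ × X => p.2) (g := C.e i)
          ((C.e i).continuousAt hi) continuousAt_snd)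
      filter_upwards [continuousAt_snd.eventually ((C.e i).open_source.mem_nhds hi),
        h1.eventually (hW.mem_nhds hp)] with p h2 h3 using ⟨h2, h3⟩
    exact ⟨_, mem_nhdsWithin_of_mem_nhds hN, ε, he, fun p hp => ⟨i, hp.1, W, hW, hp.2, hU, h⟩⟩

/-- the integral curve of a good point -/
theorem Good.curve {ε : ℝ} (_hε : 0 < ε) {s : ℝ} {x : X} (h : B.Good ε (s, x)) :
    ∃ γ : ℝ → X, γ s = x ∧ B.IC γ (Ioo (s - ε) (s + ε)) := by
  obtain ⟨i, hi, W, hW, hp, hU, h⟩ := h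
  refine ⟨fun r => (C.e i).symm (B.lf i ((s, C.e i x), r - s)).2, ?_, ?_⟩
  · show (C.e i).symm (B.lf i ((s, C.e i x), s - s)).2 = x
    rw [sub_self, lf_zero ((C.e i).map_source hi)]
    exact (C.e i).left_inv hi
  · refine ic_lf fun r hr => h _ hp _ ?_
    rw [abs_lt]
    constructor <;> linarith [hr.1, hr.2]

/-- gluing of integral curves -/
theorem glue {γ γ' : ℝ → X} {J J' : Set ℝ} (hJ : IsOpen J) (hJ' : IsOpen J') (h : B.IC γ J)
    (h' : B.IC γ' J') {r : ℝ} (hr : r ∈ J) (hr' : r ∈ J') (he : γ r = γ' r) :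
    ∃ γ'' : ℝ → X, (∀ t ≤ r, γ'' t = γ t) ∧ (∀ t, r ≤ t → γ'' t = γ' t) ∧
      B.IC γ'' ((J ∩ Iic r) ∪ (J' ∩ Ici r)) := by
  classical
  let g : ℝ → X := fun t => if t ≤ r then γ t else γ' t
  have h1 : ∀ t ≤ r, g t = γ t := fun t ht => if_pos ht
  have h2 : ∀ t, r ≤ t → g t = γ' t := by
    intro t ht
    rcases ht.eq_or_lt with rfl | ht
    · rw [h1 _ le_rfl, he]
    · exact if_neg (not_le.2 ht)
  have key : ∀ {γ₀ : ℝ → X} {t : ℝ} {J₀ : Set ℝ}, B.IC γ₀ J₀ → t ∈ J₀ → g =ᶠ[𝓝 t] γ₀ →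
      ContinuousAt g t ∧ ∀ i, g t ∈ (C.e i).source →
        HasDerivAt (fun r => C.e i (g r)) (B.b i (t, C.e i (g t))) t := by
    intro γ₀ t J₀ hic ht hev
    have h3 : g t = γ₀ t := hev.eq_of_nhds
    refine ⟨(hic t ht).1.congr hev.symm, fun i hi => ?_⟩
    rw [h3] at hi ⊢
    refine ((hic t ht).2 i hi).congr_of_eventuallyEq ?_
    filter_upwards [hev] with u hu
    rw [hu]
  have hlt : ∀ t < r, g =ᶠ[𝓝 t] γ := by
    intro t ht
    filter_upwards [isOpen_Iio.mem_nhds ht] with u hu using h1 u (le_of_lt hu)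
  have hgt : ∀ t, r < t → g =ᶠ[𝓝 t] γ' := by
    intro t ht
    filter_upwards [isOpen_Ioi.mem_nhds ht] with u hu using h2 u (le_of_lt hu)
  have heq : g =ᶠ[𝓝 r] γ := by
    filter_upwards [ic_eventuallyEq (hJ.inter hJ') (h.mono inter_subset_left)
      (h'.mono inter_subset_right) ⟨hr, hr'⟩ he] with u hu
    rcases le_total u r with h3 | h3
    · exact h1 u h3
    · rw [h2 u h3, hu]
  refine ⟨g, h1, h2, ?_⟩
  rintro t (⟨ht, htr⟩ | ⟨ht, htr⟩)
  · rcases (mem_Iic.1 htr).eq_or_lt with rfl | h3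
    · exact key h ht heq
    · exact key h ht (hlt t h3)
  · rcases (mem_Ici.1 htr).eq_or_lt with rfl | h3
    · exact key h hr heq
    · exact key h' ht (hgt t h3)

/-- integral curves on `(-T, T)` -/
theorem exists_curve_Ioo (B : TVF C) [CompactSpace X] {T : ℝ} :
    ∀ s ∈ Ioo (-T) T, ∀ x : X, ∃ γ : ℝ → X, γ s = x ∧ B.IC γ (Ioo (-T) T) := by
  obtain ⟨ε, hε, hg⟩ := exists_good B T
  set δ := ε / 2 with hδ
  have hδ0 : 0 < δ := by positivity
  have step : ∀ n : ℕ, ∀ s ∈ Ioo (-T) T, ∀ x : X, ∃ γ : ℝ → X, γ s = x ∧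
      B.IC γ (Ioo (-T) T ∩ Ioo (s - (n + 1) * δ) (s + (n + 1) * δ)) := by
    intro n
    induction n with
    | zero =>
      intro s hs x
      obtain ⟨γ, h1, h2⟩ := (hg s (Ioo_subset_Icc_self hs) x).curve hε
      refine ⟨γ, h1, h2.mono ?_⟩
      rintro t ⟨-, ht⟩
      simp only [Nat.cast_zero, zero_add, one_mul, mem_Ioo] at ht ⊢
      constructor <;> linarith [ht.1, ht.2]
    | succ n ih =>
      intro s hs x
      obtain ⟨γ₀, h01, h02⟩ := (hg s (Ioo_subset_Icc_self hs) x).curve hε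
      have hn : (0 : ℝ) ≤ (n : ℝ) * δ := by positivity
      -- to the right
      obtain ⟨γR, hR1, hR2⟩ : ∃ γR : ℝ → X, γR s = x ∧
          B.IC γR (Ioo (-T) T ∩ Ioo (s - ε) (s + (n + 2) * δ)) := by
        by_cases hr : s + δ < T
        · obtain ⟨γ₁, h11, h12⟩ := ih (s + δ) ⟨by linarith [hs.1], hr⟩ (γ₀ (s + δ))
          have hr1 : s + δ ∈ Ioo (s - ε) (s + ε) := ⟨by linarith, by linarith⟩
          have hr2 : s + δ ∈ Ioo (-T) T ∩ Ioo (s + δ - (n + 1) * δ) (s + δ + (n + 1) * δ) :=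
            ⟨⟨by linarith [hs.1], hr⟩, by nlinarith, by nlinarith⟩
          obtain ⟨g, g1, g2, g3⟩ := glue isOpen_Ioo (isOpen_Ioo.inter isOpen_Ioo) h02 h12 hr1 hr2
            h11.symm
          refine ⟨g, by rw [g1 s (by linarith), h01], g3.mono ?_⟩
          rintro t ⟨ht1, ht2⟩
          rcases le_total t (s + δ) with h | h
          · exact Or.inl ⟨⟨ht2.1, by linarith⟩, h⟩
          · refine Or.inr ⟨⟨ht1, ?_, ?_⟩, h⟩
            · nlinarith
            · nlinarith [ht2.2]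
        · refine ⟨γ₀, h01, h02.mono ?_⟩
          rintro t ⟨ht1, ht2⟩
          push Not at hr
          exact ⟨ht2.1, by linarith [ht1.2]⟩
      -- to the left
      by_cases hl : -T < s - δ
      · obtain ⟨γ₁, h11, h12⟩ := ih (s - δ) ⟨hl, by linarith [hs.2]⟩ (γR (s - δ))
        have hr1 : s - δ ∈ Ioo (-T) T ∩ Ioo (s - ε) (s + (n + 2) * δ) :=
          ⟨⟨hl, by linarith [hs.2]⟩, by linarith, by nlinarith⟩
        have hr2 : s - δ ∈ Ioo (-T) T ∩ Ioo (s - δ - (n + 1) * δ) (s - δ + (n + 1) * δ) :=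
          ⟨⟨hl, by linarith [hs.2]⟩, by nlinarith, by nlinarith⟩
        obtain ⟨g, g1, g2, g3⟩ := glue (isOpen_Ioo.inter isOpen_Ioo)
          (isOpen_Ioo.inter isOpen_Ioo) h12 hR2 hr2 hr1 h11
        refine ⟨g, by rw [g2 s (by linarith), hR1], g3.mono ?_⟩
        rintro t ⟨ht1, ht2⟩
        push_cast at ht2
        rcases le_total t (s - δ) with h | h
        · refine Or.inl ⟨⟨ht1, ?_, ?_⟩, h⟩
          · nlinarith [ht2.1]
          · nlinarith
        · refine Or.inr ⟨⟨ht1, ?_, ?_⟩, h⟩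
          · linarith
          · nlinarith [ht2.2]
      · refine ⟨γR, hR1, hR2.mono ?_⟩
        rintro t ⟨ht1, ht2⟩
        push Not at hl
        push_cast at ht2
        exact ⟨ht1, by linarith [ht1.1], by nlinarith [ht2.2]⟩
  intro s hs x
  obtain ⟨n, hn⟩ := exists_nat_ge (2 * T / δ)
  obtain ⟨γ, h1, h2⟩ := step n s hs x
  refine ⟨γ, h1, h2.mono fun t ht => ⟨ht, ?_⟩⟩
  rw [div_le_iff₀ hδ0] at hn
  constructor <;> nlinarith [ht.1, ht.2, hs.1, hs.2]

/-- integral curves exist for all times -/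
theorem exists_curve (B : TVF C) [CompactSpace X] [T2Space X] (s : ℝ) (x : X) :
    ∃ γ : ℝ → X, γ s = x ∧ B.IC γ univ := by
  have h : ∀ n : ℕ, ∃ γ : ℝ → X, γ s = x ∧ B.IC γ (Ioo (-(|s| + n + 1)) (|s| + n + 1)) := by
    intro n
    refine exists_curve_Ioo B s ?_ x
    have h1 := neg_abs_le s
    have h2 := le_abs_self s
    have h3 : (0 : ℝ) ≤ n := n.cast_nonneg
    constructor <;> linarith
  choose γ h1 h2 using h
  have hs : ∀ n : ℕ, s ∈ Ioo (-(|s| + n + 1)) (|s| + n + 1) := by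
    intro n
    have h1 := neg_abs_le s
    have h2 := le_abs_self s
    have h3 : (0 : ℝ) ≤ n := n.cast_nonneg
    constructor <;> linarith
  have hag : ∀ m n : ℕ, m ≤ n → ∀ t ∈ Ioo (-(|s| + m + 1)) (|s| + m + 1), γ m t = γ n t := by
    intro m n hmn
    have hc : (m : ℝ) ≤ n := by exact_mod_cast hmn
    refine ic_unique isOpen_Ioo isPreconnected_Ioo (h2 m) ((h2 n).mono ?_) (hs m) ?_
    · intro t ht
      exact ⟨by linarith [ht.1], by linarith [ht.2]⟩
    · rw [h1, h1]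
  refine ⟨fun t => γ ⌈|t|⌉₊ t, h1 _, ?_⟩
  intro t _
  have hev : (fun t => γ ⌈|t|⌉₊ t) =ᶠ[𝓝 t] γ ⌈|t| + 1⌉₊ := by
    filter_upwards [Metric.ball_mem_nhds t one_pos] with u hu
    rw [Metric.mem_ball, Real.dist_eq] at hu
    have h3 : |u| ≤ |t| + 1 := by
      have := abs_sub_abs_le_abs_sub u t
      linarith
    refine hag _ _ (Nat.ceil_mono h3) u ?_
    have h4 := Nat.le_ceil |u|
    have h5 := neg_abs_le u
    have h6 := le_abs_self u
    have h7 := abs_nonneg s
    constructor <;> linarith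
  have ht : t ∈ Ioo (-(|s| + (⌈|t| + 1⌉₊ : ℝ) + 1)) (|s| + (⌈|t| + 1⌉₊ : ℝ) + 1) := by
    have h4 := Nat.le_ceil (|t| + 1)
    have h5 := neg_abs_le t
    have h6 := le_abs_self t
    have h7 := abs_nonneg s
    constructor <;> linarith
  have h8 := h2 _ t ht
  have h9 : (fun t => γ ⌈|t|⌉₊ t) t = γ ⌈|t| + 1⌉₊ t := hev.eq_of_nhds
  refine ⟨h8.1.congr hev.symm, fun i hi => ?_⟩
  rw [h9] at hi ⊢
  refine (h8.2 i hi).congr_of_eventuallyEq ?_
  filter_upwards [hev] with u hu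
  exact congrArg (C.e i) hu

variable [CompactSpace X] [T2Space X]

variable (B) in
/-- the flow: position at the time `t` of the integral curve through `x` at the time `s` -/
def Fl (s t : ℝ) (x : X) : X := (exists_curve B s x).choose t

theorem Fl_self (s : ℝ) (x : X) : B.Fl s s x = x := (exists_curve B s x).choose_spec.1

theorem Fl_ic (s : ℝ) (x : X) : B.IC (fun t => B.Fl s t x) univ :=
  (exists_curve B s x).choose_spec.2

/-- uniqueness -/
theorem Fl_unique {γ : ℝ → X} {J : Set ℝ} (hJ : IsOpen J) (hJc : IsPreconnected J)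
    (h : B.IC γ J) {s : ℝ} (hs : s ∈ J) : ∀ t ∈ J, B.Fl s t (γ s) = γ t :=
  ic_unique hJ hJc ((Fl_ic s (γ s)).mono (subset_univ _)) h hs (Fl_self s (γ s))

theorem Fl_comp (s r t : ℝ) (x : X) : B.Fl r t (B.Fl s r x) = B.Fl s t x :=
  Fl_unique (γ := fun t => B.Fl s t x) isOpen_univ isPreconnected_univ (Fl_ic s x)
    (mem_univ r) t (mem_univ t)

theorem Fl_inv (s t : ℝ) (x : X) : B.Fl t s (B.Fl s t x) = x := by
  rw [Fl_comp, Fl_self]


theorem Fl_hasDerivAt {s t : ℝ} {x : X} {i : C.ι} (hi : B.Fl s t x ∈ (C.e i).source) :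
    HasDerivAt (fun t => C.e i (B.Fl s t x)) (B.b i (t, C.e i (B.Fl s t x))) t :=
  (Fl_ic s x t (mem_univ t)).2 i hi

end TVF

end Crest.Agent.N207.B.Fl

end
end

-- ▼ part N207/B/Flow3

/-!
# Row 207, block B FLOW (helper69; universe-polymorphic port of R281/Flo*_222), part 3 (helper222): smoothness of the flow

* `TVF.Sm B s t x`      : the flow is continuous and, in charts, `C^∞` at `(s, t, x)`
* `sm_all`              : `Sm B s t x` for all `s t x`
* `Fl_contDiffAt`, `Fl_continuous`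
-/

set_option autoImplicit false
set_option linter.unusedSectionVars false

open Set Filter Topology
open scoped ContDiff

noncomputable section

namespace Crest.Agent.N207.B.Fl

open Crest.Agent.Lib.ODEFlow

universe u

variable {V : Type} {X : Type u} [NormedAddCommGroup V] [NormedSpace ℝ V] [TopologicalSpace X]
  [CompleteSpace V] [CompactSpace X] [T2Space X]

namespace TVF

variable {C : RCh V X} {B : TVF C}

variable (B) in
/-- the flow read in the charts `i` (source) and `j` (target) -/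
def rd (i j : C.ι) (p : ℝ × ℝ × V) : V := C.e j (B.Fl p.1 p.2.1 ((C.e i).symm p.2.2))

variable (B) in
/-- the flow is continuous and smooth at `(s, t, x)` -/
def Sm (s t : ℝ) (x : X) : Prop :=
  ContinuousAt (fun p : ℝ × ℝ × X => B.Fl p.1 p.2.1 p.2.2) (s, t, x) ∧
    ∀ i j, x ∈ (C.e i).source → B.Fl s t x ∈ (C.e j).source →
      ContDiffAt ℝ ∞ (B.rd i j) (s, t, C.e i x)

/-- independence of the charts -/
theorem sm_of_chart {s t : ℝ} {x : X}
    (hc : ContinuousAt (fun p : ℝ × ℝ × X => B.Fl p.1 p.2.1 p.2.2) (s, t, x)) {i j : C.ι}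
    (hi : x ∈ (C.e i).source) (hj : B.Fl s t x ∈ (C.e j).source)
    (h : ContDiffAt ℝ ∞ (B.rd i j) (s, t, C.e i x)) : B.Sm s t x := by
  refine ⟨hc, fun i' j' hi' hj' => ?_⟩
  -- change of the source chart
  have hz : C.e i' x ∈ C.ov i' i := ⟨(C.e i').map_source hi', by rwa [(C.e i').left_inv hi']⟩
  have h1 : ContDiffAt ℝ ∞ (fun p : ℝ × ℝ × V => (p.1, p.2.1, C.t i' i p.2.2))
      (s, t, C.e i' x) := by
    have h2 : ContDiffAt ℝ ∞ (C.t i' i) (C.e i' x) :=
      (RCh.t_smooth i' i).contDiffAt ((RCh.isOpen_ov i' i).mem_nhds hz)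
    have h3 : ContDiffAt ℝ ∞ (fun p : ℝ × ℝ × V => C.t i' i p.2.2) (s, t, C.e i' x) :=
      ContDiffAt.comp (g := C.t i' i) (f := fun p : ℝ × ℝ × V => p.2.2) (s, t, C.e i' x) h2
        (contDiffAt_snd.snd)
    exact contDiffAt_fst.prodMk (contDiffAt_snd.fst.prodMk h3)
  have hti : C.t i' i (C.e i' x) = C.e i x := by
    show C.e i ((C.e i').symm (C.e i' x)) = _
    rw [(C.e i').left_inv hi']
  have h4 : ContDiffAt ℝ ∞ (B.rd i j ∘ fun p : ℝ × ℝ × V => (p.1, p.2.1, C.t i' i p.2.2))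
      (s, t, C.e i' x) := by
    refine ContDiffAt.comp (s, t, C.e i' x) ?_ h1
    show ContDiffAt ℝ ∞ (B.rd i j) (s, t, C.t i' i (C.e i' x))
    rw [hti]
    exact h
  -- change of the target chart
  have hw : C.e j (B.Fl s t x) ∈ C.ov j j' :=
    ⟨(C.e j).map_source hj, by rwa [(C.e j).left_inv hj]⟩
  have h5 : ContDiffAt ℝ ∞ (C.t j j') (C.e j (B.Fl s t x)) :=
    (RCh.t_smooth j j').contDiffAt ((RCh.isOpen_ov j j').mem_nhds hw)
  have hval : (B.rd i j ∘ fun p : ℝ × ℝ × V => (p.1, p.2.1, C.t i' i p.2.2)) (s, t, C.e i' x) =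
      C.e j (B.Fl s t x) := by
    show C.e j (B.Fl s t ((C.e i).symm (C.t i' i (C.e i' x)))) = _
    rw [hti, (C.e i).left_inv hi]
  have h6 : ContDiffAt ℝ ∞ (C.t j j' ∘ (B.rd i j ∘
      fun p : ℝ × ℝ × V => (p.1, p.2.1, C.t i' i p.2.2))) (s, t, C.e i' x) := by
    refine ContDiffAt.comp (s, t, C.e i' x) ?_ h4
    rw [hval]
    exact h5
  refine h6.congr_of_eventuallyEq ?_
  -- the two functions agree near the point
  have hcz : ContinuousAt (fun p : ℝ × ℝ × V => B.Fl p.1 p.2.1 ((C.e i').symm p.2.2))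
      (s, t, C.e i' x) := by
    have h7 : ContinuousAt (fun p : ℝ × ℝ × V => (p.1, p.2.1, (C.e i').symm p.2.2))
        (s, t, C.e i' x) := by
      refine continuousAt_fst.prodMk ((continuousAt_fst.comp continuousAt_snd).prodMk ?_)
      exact ContinuousAt.comp (g := (C.e i').symm) (f := fun p : ℝ × ℝ × V => p.2.2)
        ((C.e i').continuousAt_symm hz.1) (continuousAt_snd.comp continuousAt_snd)
    refine ContinuousAt.comp (g := fun p : ℝ × ℝ × X => B.Fl p.1 p.2.1 p.2.2) ?_ h7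
    show ContinuousAt _ (s, t, (C.e i').symm (C.e i' x))
    rw [(C.e i').left_inv hi']
    exact hc
  have hv : (fun p : ℝ × ℝ × V => B.Fl p.1 p.2.1 ((C.e i').symm p.2.2)) (s, t, C.e i' x) =
      B.Fl s t x := by
    show B.Fl s t ((C.e i').symm (C.e i' x)) = _
    rw [(C.e i').left_inv hi']
  have e1 : ∀ᶠ p : ℝ × ℝ × V in 𝓝 (s, t, C.e i' x),
      B.Fl p.1 p.2.1 ((C.e i').symm p.2.2) ∈ (C.e j).source := by
    refine hcz.eventually ?_
    rw [hv]
    exact (C.e j).open_source.mem_nhds hj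
  have e2 : ∀ᶠ p : ℝ × ℝ × V in 𝓝 (s, t, C.e i' x), p.2.2 ∈ C.ov i' i :=
    (continuousAt_snd.comp continuousAt_snd).eventually ((RCh.isOpen_ov i' i).mem_nhds hz)
  filter_upwards [e1, e2] with p hp1 hp2
  show C.e j' (B.Fl p.1 p.2.1 ((C.e i').symm p.2.2)) =
    C.e j' ((C.e j).symm (C.e j (B.Fl p.1 p.2.1 ((C.e i).symm (C.e i ((C.e i').symm p.2.2))))))
  rw [(C.e i).left_inv hp2.2, (C.e j).left_inv hp1]

/-- smoothness for short times -/
theorem Good.sm {ε : ℝ} {s t : ℝ} {x : X} (h : B.Good ε (s, x)) (ht : |t - s| < ε) :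
    B.Sm s t x := by
  obtain ⟨i, hi, W, hW, hp, hU, hd⟩ := h
  -- the flow is given by the local flow
  have key : ∀ q ∈ W, ∀ r, |r - q.1| < ε →
      B.Fl q.1 r ((C.e i).symm q.2) = (C.e i).symm (B.lf i (q, r - q.1)).2 := by
    intro q hq r hr
    have hic : B.IC (fun r => (C.e i).symm (B.lf i ((q.1, q.2), r - q.1)).2)
        (Ioo (q.1 - ε) (q.1 + ε)) := ic_lf fun r hr => hd _ hq _ (by
          rw [abs_lt]
          constructor <;> linarith [hr.1, hr.2])
    have hε : 0 < ε := (abs_nonneg _).trans_lt hr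
    have h1 := Fl_unique isOpen_Ioo isPreconnected_Ioo hic (s := q.1)
      ⟨by linarith, by linarith⟩ r (by
        rw [abs_lt] at hr
        exact ⟨by linarith [hr.1], by linarith [hr.2]⟩)
    have h2 : (C.e i).symm (B.lf i ((q.1, q.2), q.1 - q.1)).2 = (C.e i).symm q.2 := by
      rw [sub_self, lf_zero (B.mem_U.1 (hU hq))]
    rw [h2] at h1
    exact h1
  -- the set where the formula holds
  have hev : ∀ᶠ p : ℝ × ℝ × V in 𝓝 (s, t, C.e i x), (p.1, p.2.2) ∈ W ∧ |p.2.1 - p.1| < ε := by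
    have c1 : Continuous (fun p : ℝ × ℝ × V => (p.1, p.2.2)) := by fun_prop
    have c2 : Continuous (fun p : ℝ × ℝ × V => |p.2.1 - p.1|) := by fun_prop
    have h9 : ∀ᶠ p : ℝ × ℝ × V in 𝓝 (s, t, C.e i x), |p.2.1 - p.1| < ε :=
      c2.continuousAt.eventually (Iio_mem_nhds ht)
    exact (c1.continuousAt.eventually (hW.mem_nhds hp)).and h9
  -- smoothness of the local flow
  have h3 : ContDiffAt ℝ ∞ (fun p : ℝ × ℝ × V => (B.lf i ((p.1, p.2.2), p.2.1 - p.1)).2)
      (s, t, C.e i x) := by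
    have h4 : ContDiffOn ℝ ∞ (B.lf i) (B.ld i) :=
      contDiffOn_flow (n := ⊤) (by simp) (B.isOpen_U i) (B.contDiffOn_vt i)
    have h5 : ContDiffAt ℝ ∞ (B.lf i) ((s, C.e i x), t - s) :=
      h4.contDiffAt (isOpen_ld i |>.mem_nhds (hd _ hp _ ht))
    have h6 : ContDiffAt ℝ ∞ (fun p : ℝ × ℝ × V => ((p.1, p.2.2), p.2.1 - p.1)) (s, t, C.e i x) := by
      fun_prop
    exact (ContDiffAt.comp (g := B.lf i) (s, t, C.e i x) h5 h6).snd
  have ht2 : (B.lf i ((s, C.e i x), t - s)).2 ∈ (C.e i).target := lf_mem (hd _ hp _ ht)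
  have hFl : B.Fl s t x = (C.e i).symm (B.lf i ((s, C.e i x), t - s)).2 := by
    have := key _ hp t ht
    rwa [(C.e i).left_inv hi] at this
  -- continuity
  have hc : ContinuousAt (fun p : ℝ × ℝ × X => B.Fl p.1 p.2.1 p.2.2) (s, t, x) := by
    have h7 : ContinuousAt (fun p : ℝ × ℝ × X => (p.1, p.2.1, C.e i p.2.2)) (s, t, x) := by
      refine continuousAt_fst.prodMk ((continuousAt_fst.comp continuousAt_snd).prodMk ?_)
      exact ContinuousAt.comp (g := C.e i) (f := fun p : ℝ × ℝ × X => p.2.2)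
        ((C.e i).continuousAt hi) (continuousAt_snd.comp continuousAt_snd)
    have h8 : ContinuousAt (fun p : ℝ × ℝ × X =>
        (C.e i).symm (B.lf i ((p.1, C.e i p.2.2), p.2.1 - p.1)).2) (s, t, x) := by
      refine ContinuousAt.comp (g := (C.e i).symm) (f := fun p : ℝ × ℝ × X =>
        (B.lf i ((p.1, C.e i p.2.2), p.2.1 - p.1)).2) ((C.e i).continuousAt_symm ht2) ?_
      exact ContinuousAt.comp (g := fun p : ℝ × ℝ × V => (B.lf i ((p.1, p.2.2), p.2.1 - p.1)).2)
        (f := fun p : ℝ × ℝ × X => (p.1, p.2.1, C.e i p.2.2)) h3.continuousAt h7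
    refine h8.congr ?_
    have hs : ∀ᶠ p : ℝ × ℝ × X in 𝓝 (s, t, x), p.2.2 ∈ (C.e i).source :=
      (continuousAt_snd.comp continuousAt_snd).eventually ((C.e i).open_source.mem_nhds hi)
    filter_upwards [h7.eventually hev, hs] with p hp1 hp2
    have := key _ hp1.1 p.2.1 hp1.2
    rw [(C.e i).left_inv hp2] at this
    exact this.symm
  have hj : B.Fl s t x ∈ (C.e i).source := by
    rw [hFl]
    exact (C.e i).map_target ht2
  refine sm_of_chart hc hi hj (h3.congr_of_eventuallyEq ?_)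
  filter_upwards [hev] with p hp1
  show C.e i (B.Fl p.1 p.2.1 ((C.e i).symm p.2.2)) = _
  rw [key _ hp1.1 p.2.1 hp1.2]
  exact (C.e i).right_inv (lf_mem (hd _ hp1.1 _ hp1.2))

/-- composition -/
theorem Sm.comp {s r t : ℝ} {x : X} (h1 : B.Sm s r x) (h2 : B.Sm r t (B.Fl s r x)) :
    B.Sm s t x := by
  have hval : B.Fl r t (B.Fl s r x) = B.Fl s t x := Fl_comp s r t x
  have hc1 : ContinuousAt (fun p : ℝ × ℝ × X => B.Fl p.1 r p.2.2) (s, t, x) := by
    have h3 : ContinuousAt (fun p : ℝ × ℝ × X => (p.1, r, p.2.2)) (s, t, x) := by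
      refine continuousAt_fst.prodMk (continuousAt_const.prodMk ?_)
      exact continuousAt_snd.comp continuousAt_snd
    exact ContinuousAt.comp (g := fun p : ℝ × ℝ × X => B.Fl p.1 p.2.1 p.2.2)
      (f := fun p : ℝ × ℝ × X => (p.1, r, p.2.2)) h1.1 h3
  have hc : ContinuousAt (fun p : ℝ × ℝ × X => B.Fl p.1 p.2.1 p.2.2) (s, t, x) := by
    have h3 : ContinuousAt (fun p : ℝ × ℝ × X => (r, p.2.1, B.Fl p.1 r p.2.2)) (s, t, x) :=
      continuousAt_const.prodMk ((continuousAt_fst.comp continuousAt_snd).prodMk hc1)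
    have h4 := ContinuousAt.comp (g := fun p : ℝ × ℝ × X => B.Fl p.1 p.2.1 p.2.2)
      (f := fun p : ℝ × ℝ × X => (r, p.2.1, B.Fl p.1 r p.2.2)) (x := (s, t, x)) h2.1 h3
    refine h4.congr (Eventually.of_forall fun p => ?_)
    exact Fl_comp p.1 r p.2.1 p.2.2
  obtain ⟨i, hi⟩ := C.cover x
  obtain ⟨k, hk⟩ := C.cover (B.Fl s r x)
  obtain ⟨j, hj⟩ := C.cover (B.Fl s t x)
  refine sm_of_chart hc hi hj ?_
  have a1 : ContDiffAt ℝ ∞ (fun p : ℝ × ℝ × V => B.rd i k (p.1, r, p.2.2)) (s, t, C.e i x) := by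
    have h3 : ContDiffAt ℝ ∞ (fun p : ℝ × ℝ × V => (p.1, r, p.2.2)) (s, t, C.e i x) := by fun_prop
    exact ContDiffAt.comp (g := B.rd i k) (f := fun p : ℝ × ℝ × V => (p.1, r, p.2.2))
      (s, t, C.e i x) (h1.2 i k hi hk) h3
  have a2 : B.rd i k (s, r, C.e i x) = C.e k (B.Fl s r x) := by
    show C.e k (B.Fl s r ((C.e i).symm (C.e i x))) = _
    rw [(C.e i).left_inv hi]
  have a3 : ContDiffAt ℝ ∞ (B.rd k j) (r, t, C.e k (B.Fl s r x)) :=
    h2.2 k j hk (by rw [hval]; exact hj)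
  have a4 : ContDiffAt ℝ ∞ (fun p : ℝ × ℝ × V => B.rd k j (r, p.2.1, B.rd i k (p.1, r, p.2.2)))
      (s, t, C.e i x) := by
    have h3 : ContDiffAt ℝ ∞ (fun p : ℝ × ℝ × V => (r, p.2.1, B.rd i k (p.1, r, p.2.2)))
        (s, t, C.e i x) := contDiffAt_const.prodMk (contDiffAt_snd.fst.prodMk a1)
    refine ContDiffAt.comp (g := B.rd k j)
      (f := fun p : ℝ × ℝ × V => (r, p.2.1, B.rd i k (p.1, r, p.2.2))) (s, t, C.e i x) ?_ h3
    show ContDiffAt ℝ ∞ (B.rd k j) (r, t, B.rd i k (s, r, C.e i x))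
    rw [a2]
    exact a3
  refine a4.congr_of_eventuallyEq ?_
  have hcz : ContinuousAt (fun p : ℝ × ℝ × V => B.Fl p.1 r ((C.e i).symm p.2.2))
      (s, t, C.e i x) := by
    have h7 : ContinuousAt (fun p : ℝ × ℝ × V => (p.1, p.2.1, (C.e i).symm p.2.2))
        (s, t, C.e i x) := by
      refine continuousAt_fst.prodMk ((continuousAt_fst.comp continuousAt_snd).prodMk ?_)
      exact ContinuousAt.comp (g := (C.e i).symm) (f := fun p : ℝ × ℝ × V => p.2.2)
        ((C.e i).continuousAt_symm ((C.e i).map_source hi)) (continuousAt_snd.comp continuousAt_snd)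
    refine ContinuousAt.comp (g := fun p : ℝ × ℝ × X => B.Fl p.1 r p.2.2)
      (f := fun p : ℝ × ℝ × V => (p.1, p.2.1, (C.e i).symm p.2.2)) ?_ h7
    show ContinuousAt _ (s, t, (C.e i).symm (C.e i x))
    rw [(C.e i).left_inv hi]
    exact hc1
  have e1 : ∀ᶠ p : ℝ × ℝ × V in 𝓝 (s, t, C.e i x),
      B.Fl p.1 r ((C.e i).symm p.2.2) ∈ (C.e k).source := by
    refine hcz.eventually ?_
    show _ ∈ 𝓝 (B.Fl s r ((C.e i).symm (C.e i x)))
    rw [(C.e i).left_inv hi]
    exact (C.e k).open_source.mem_nhds hk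
  filter_upwards [e1] with p hp1
  show C.e j (B.Fl p.1 p.2.1 ((C.e i).symm p.2.2)) =
    C.e j (B.Fl r p.2.1 ((C.e k).symm (C.e k (B.Fl p.1 r ((C.e i).symm p.2.2)))))
  rw [(C.e k).left_inv hp1, Fl_comp]

/-- **the flow is smooth** -/
theorem sm_all (B : TVF C) (s t : ℝ) (x : X) : B.Sm s t x := by
  set T := |s| + |t| with hT
  obtain ⟨ε, hε, hg⟩ := exists_good B T
  have hsT : s ∈ Icc (-T) T := by
    constructor <;> [have := neg_abs_le s; have := le_abs_self s] <;>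
      have := abs_nonneg t <;> linarith
  have htT : t ∈ Icc (-T) T := by
    constructor <;> [have := neg_abs_le t; have := le_abs_self t] <;>
      have := abs_nonneg s <;> linarith
  have step : ∀ n : ℕ, ∀ s ∈ Icc (-T) T, ∀ t ∈ Icc (-T) T, ∀ x : X,
      |t - s| < (n + 1) * (ε / 2) → B.Sm s t x := by
    intro n
    induction n with
    | zero =>
      intro s hs t ht x h
      refine (hg s hs x).sm (h.trans_le ?_)
      simp only [Nat.cast_zero, zero_add, one_mul]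
      linarith
    | succ n ih =>
      intro s hs t ht x h
      push_cast at h
      by_cases h0 : |t - s| < (n + 1) * (ε / 2)
      · exact ih s hs t ht x h0
      · push Not at h0
        -- the intermediate point
        rcases le_total s t with hst | hst
        · rw [abs_of_nonneg (by linarith)] at h h0
          have hr : s + ε / 2 ≤ t := by
            have : (0 : ℝ) ≤ n * (ε / 2) := by positivity
            nlinarith
          have hrT : s + ε / 2 ∈ Icc (-T) T := ⟨by linarith [hs.1], hr.trans ht.2⟩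
          have h1 : B.Sm s (s + ε / 2) x := (hg s hs x).sm (by
            rw [add_sub_cancel_left, abs_of_pos (by linarith)]
            linarith)
          exact h1.comp (ih _ hrT t ht _ (by
            rw [abs_of_nonneg (by linarith)]
            nlinarith))
        · rw [abs_of_nonpos (by linarith)] at h h0
          have hr : t ≤ s - ε / 2 := by
            have : (0 : ℝ) ≤ n * (ε / 2) := by positivity
            nlinarith
          have hrT : s - ε / 2 ∈ Icc (-T) T := ⟨ht.1.trans hr, by linarith [hs.2]⟩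
          have h1 : B.Sm s (s - ε / 2) x := (hg s hs x).sm (by
            rw [sub_sub_cancel_left, abs_neg, abs_of_pos (by linarith)]
            linarith)
          exact h1.comp (ih _ hrT t ht _ (by
            rw [abs_of_nonpos (by linarith)]
            nlinarith))
  obtain ⟨n, hn⟩ := exists_nat_ge (|t - s| / (ε / 2))
  refine step n s hsT t htT x ?_
  rw [div_le_iff₀ (by positivity)] at hn
  linarith

theorem Fl_continuous (B : TVF C) : Continuous (fun p : ℝ × ℝ × X => B.Fl p.1 p.2.1 p.2.2) :=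
  continuous_iff_continuousAt.2 fun p => (sm_all B p.1 p.2.1 p.2.2).1

/-- the flow read in charts is smooth in `(s, t, z)` -/
theorem rd_contDiffAt (B : TVF C) {s t : ℝ} {x : X} {i j : C.ι} (hi : x ∈ (C.e i).source)
    (hj : B.Fl s t x ∈ (C.e j).source) : ContDiffAt ℝ ∞ (B.rd i j) (s, t, C.e i x) :=
  (sm_all B s t x).2 i j hi hj


end TVF

end Crest.Agent.N207.B.Fl

end
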