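import Crest.Agent.N207.B.Pb1
import Crest.Agent.N207.A.Co3
import Crest.Agent.N207.AI.Nat
import Crest.Agent.N207.P.Tr
import Crest.Agent.R249.Bia3_104
import Crest.Agent.N207.A.Mk
import Crest.Agent.N207.AI.Par1

-- ▼ part N207/B/Dt1
section

/-!
# Row 207, block B STE, part 1 (helper69): the DeTurck operator in coordinates

`DT G H = -2 Ric(G) - L_b G`, `b = dtV G H`, equals `G^{kl} ∂ₖ∂ₗ G_{ij}` plus a polynomial in the
1-jet of `G`, `G⁻¹` and the 1-jet of the Christoffel symbols of `H`.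
-/

set_option autoImplicit false
set_option linter.unusedSectionVars false

open scoped ContDiff Topology
open Set Filter
open Crest.GeometryTopology.CoordMetric Crest.GeometryTopology.ChartCurvature
open Crest.Agent.R247 Crest.Agent.R202.Tens

noncomputable section

namespace Crest.Agent.N207.B

variable {n : ℕ}

/-- arrays -/
abbrev A2 (n : ℕ) := Matrix (Fin n) (Fin n) ℝ
/-- arrays -/
abbrev A3 (n : ℕ) := Fin n → Fin n → Fin n → ℝ
/-- arrays -/
abbrev A4 (n : ℕ) := Fin n → Fin n → Fin n → Fin n → ℝ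

/-- formal Christoffel symbols -/
def fchr (Ai : A2 n) (P : A3 n) : A3 n := fun k i j =>
  (1 / 2) * ∑ l, Ai k l * (P i j l + P j i l - P l i j)

/-- formal derivative of the inverse -/
def fdi (Ai : A2 n) (P : A3 n) : A3 n := fun m a b => -∑ c, ∑ d, Ai a c * P m c d * Ai d b

/-- second order part of the derivative of the Christoffel symbols -/
def fs2 (Ai : A2 n) (PP : A4 n) : A4 n := fun m k i j =>
  (1 / 2) * ∑ l, Ai k l * (PP m i j l + PP m j i l - PP m l i j)

/-- first order part of the derivative of the Christoffel symbols -/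
def fs1 (Ai : A2 n) (P : A3 n) : A4 n := fun m k i j =>
  (1 / 2) * ∑ l, fdi Ai P m k l * (P i j l + P j i l - P l i j)

/-- formal DeTurck vector field -/
def fb (Ai : A2 n) (P C : A3 n) (k : Fin n) : ℝ :=
  -∑ p, ∑ q, Ai p q * (fchr Ai P k p q - C k p q)

/-- formal derivative of the DeTurck vector field; `D` = derivative of the Christoffel symbols -/
def fdb (Ai : A2 n) (P C : A3 n) (D dC : A4 n) (m k : Fin n) : ℝ :=
  -∑ p, ∑ q, (Ai p q * (D m k p q - dC m k p q) + fdi Ai P m p q * (fchr Ai P k p q - C k p q))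

/-- formal DeTurck operator; `D` = derivative of the Christoffel symbols -/
def fDT (A Ai : A2 n) (P C : A3 n) (D dC : A4 n) (i j : Fin n) : ℝ :=
  -2 * ((∑ k, D k k i j) - (∑ k, D j k k i) + (∑ k, ∑ l, fchr Ai P k k l * fchr Ai P l i j) -
    ∑ k, ∑ l, fchr Ai P k j l * fchr Ai P l k i) -
  ∑ k, (fb Ai P C k * P k i j + A k j * fdb Ai P C D dC i k + A i k * fdb Ai P C D dC j k)

theorem fDT_add (A Ai : A2 n) (P C : A3 n) (D D' dC : A4 n) (i j : Fin n) :
    fDT A Ai P C (D + D') dC i j = fDT A Ai P C D dC i j +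
      (-2 * ((∑ k, D' k k i j) - ∑ k, D' j k k i) + (∑ p, ∑ q, Ai p q * ∑ k, A k j * D' i k p q) +
        ∑ p, ∑ q, Ai p q * ∑ k, A i k * D' j k p q) := by
  have h1 : ∀ m k, fdb Ai P C (D + D') dC m k =
      fdb Ai P C D dC m k - ∑ p, ∑ q, Ai p q * D' m k p q := by
    intro m k
    simp only [fdb, Pi.add_apply]
    rw [← neg_add', ← Finset.sum_add_distrib]
    congr 1
    refine Finset.sum_congr rfl fun p _ => ?_
    rw [← Finset.sum_add_distrib]
    exact Finset.sum_congr rfl fun q _ => by ring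
  have h2 : ∀ (B : Fin n → ℝ) (m : Fin n), ∑ p, ∑ q, Ai p q * ∑ k, B k * D' m k p q =
      ∑ k, B k * ∑ p, ∑ q, Ai p q * D' m k p q := by
    intro B m
    simp only [Finset.mul_sum]
    conv_rhs => rw [Finset.sum_comm]
    refine Finset.sum_congr rfl fun p _ => ?_
    rw [Finset.sum_comm]
    exact Finset.sum_congr rfl fun k _ => Finset.sum_congr rfl fun q _ => by ring
  rw [h2 (fun k => A k j), h2 (fun k => A i k)]
  simp only [fDT, h1, Pi.add_apply, Finset.sum_add_distrib, mul_sub, Finset.sum_sub_distrib]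
  ring

theorem sum_fs2 {A Ai : A2 n} (h : ∀ a b, ∑ m, A a m * Ai m b = if a = b then 1 else 0)
    (PP : A4 n) (a m p q : Fin n) :
    ∑ k, A a k * fs2 Ai PP m k p q = (1 / 2) * (PP m p q a + PP m q p a - PP m a p q) := by
  have h1 : ∑ k, A a k * fs2 Ai PP m k p q =
      (1 / 2) * ∑ l, (∑ k, A a k * Ai k l) * (PP m p q l + PP m q p l - PP m l p q) := by
    simp only [fs2, Finset.mul_sum, Finset.sum_mul]
    rw [Finset.sum_comm]
    exact Finset.sum_congr rfl fun l _ => Finset.sum_congr rfl fun k _ => by ring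
  rw [h1]
  simp [h]

/-- the principal part of the DeTurck operator -/
theorem fDT_princ {A Ai : A2 n} (hA : ∀ a b, A a b = A b a) (hAi : ∀ a b, Ai a b = Ai b a)
    (h : ∀ a b, ∑ m, A a m * Ai m b = if a = b then 1 else 0) {PP : A4 n}
    (h1 : ∀ a b c d, PP a b c d = PP b a c d) (h2 : ∀ a b c d, PP a b c d = PP a b d c)
    (P C : A3 n) (D dC : A4 n) (i j : Fin n) :
    fDT A Ai P C (D + fs2 Ai PP) dC i j =
      (∑ k, ∑ l, Ai k l * PP k l i j) + fDT A Ai P C D dC i j := by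
  rw [fDT_add, add_comm]
  congr 1
  have e1 : ∀ m p q, ∑ k, A k j * fs2 Ai PP m k p q = _ := fun m p q =>
    (Finset.sum_congr rfl fun k _ => by rw [hA k j]).trans (sum_fs2 h PP j m p q)
  simp only [e1, sum_fs2 h]
  have sw : ∀ f : Fin n → Fin n → ℝ, ∑ k, ∑ l, Ai k l * f k l = ∑ k, ∑ l, Ai k l * f l k := by
    intro f
    rw [Finset.sum_comm]
    exact Finset.sum_congr rfl fun k _ => Finset.sum_congr rfl fun l _ => by rw [hAi]
  have a1 : ∑ k, ∑ l, Ai k l * PP j k i l = ∑ k, ∑ l, Ai k l * PP k j i l := by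
    simp only [h1 j]
  have a2 : ∑ k, ∑ l, Ai k l * PP j l k i = ∑ k, ∑ l, Ai k l * PP k j i l := by
    rw [sw fun k l => PP j l k i]
    exact Finset.sum_congr rfl fun k _ => Finset.sum_congr rfl fun l _ => by rw [h1 j, h2 k j l]
  have a3 : ∑ k, ∑ l, Ai k l * PP j k l i = ∑ k, ∑ l, Ai k l * PP k j i l :=
    Finset.sum_congr rfl fun k _ => Finset.sum_congr rfl fun l _ => by rw [h1 j, h2 k j l]
  have a4 : ∑ k, ∑ l, Ai k l * PP i k l j = ∑ k, ∑ l, Ai k l * PP k i j l :=
    Finset.sum_congr rfl fun k _ => Finset.sum_congr rfl fun l _ => by rw [h1 i, h2 k i l]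
  have a5 : ∑ k, ∑ l, Ai k l * PP i l k j = ∑ k, ∑ l, Ai k l * PP k i j l := by
    rw [sw fun k l => PP i l k j, a4]
  have a6 : ∑ k, ∑ l, Ai k l * PP j i k l = ∑ k, ∑ l, Ai k l * PP i j k l := by
    simp only [h1 j i]
  simp only [fs2, ← Finset.mul_sum, mul_add, mul_sub, Finset.sum_add_distrib,
    Finset.sum_sub_distrib, mul_left_comm _ (1 / 2 : ℝ)]
  rw [a1, a2, a3, a4, a5, a6]
  ring

/-! ### smooth dependence -/

section smooth

variable {X : Type*} [NormedAddCommGroup X] [NormedSpace ℝ X] {S : Set X}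
  {A Ai : X → A2 n} {P C : X → A3 n} {D dC : X → A4 n}

theorem sm_fchr (hAi : ∀ a b, ContDiffOn ℝ ∞ (fun q => Ai q a b) S)
    (hP : ∀ a b c, ContDiffOn ℝ ∞ (fun q => P q a b c) S) (k i j : Fin n) :
    ContDiffOn ℝ ∞ (fun q => fchr (Ai q) (P q) k i j) S :=
  contDiffOn_const.mul (ContDiffOn.sum fun l _ =>
    (hAi k l).mul (((hP i j l).add (hP j i l)).sub (hP l i j)))

theorem sm_fdi (hAi : ∀ a b, ContDiffOn ℝ ∞ (fun q => Ai q a b) S)
    (hP : ∀ a b c, ContDiffOn ℝ ∞ (fun q => P q a b c) S) (m a b : Fin n) :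
    ContDiffOn ℝ ∞ (fun q => fdi (Ai q) (P q) m a b) S :=
  (ContDiffOn.sum fun c _ => ContDiffOn.sum fun d _ =>
    ((hAi a c).mul (hP m c d)).mul (hAi d b)).neg

theorem sm_fs1 (hAi : ∀ a b, ContDiffOn ℝ ∞ (fun q => Ai q a b) S)
    (hP : ∀ a b c, ContDiffOn ℝ ∞ (fun q => P q a b c) S) (m k i j : Fin n) :
    ContDiffOn ℝ ∞ (fun q => fs1 (Ai q) (P q) m k i j) S :=
  contDiffOn_const.mul (ContDiffOn.sum fun l _ =>
    (sm_fdi hAi hP m k l).mul (((hP i j l).add (hP j i l)).sub (hP l i j)))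

theorem sm_fDT (hA : ∀ a b, ContDiffOn ℝ ∞ (fun q => A q a b) S)
    (hAi : ∀ a b, ContDiffOn ℝ ∞ (fun q => Ai q a b) S)
    (hP : ∀ a b c, ContDiffOn ℝ ∞ (fun q => P q a b c) S)
    (hC : ∀ a b c, ContDiffOn ℝ ∞ (fun q => C q a b c) S)
    (hD : ∀ a b c d, ContDiffOn ℝ ∞ (fun q => D q a b c d) S)
    (hdC : ∀ a b c d, ContDiffOn ℝ ∞ (fun q => dC q a b c d) S) (i j : Fin n) :
    ContDiffOn ℝ ∞ (fun q => fDT (A q) (Ai q) (P q) (C q) (D q) (dC q) i j) S := by
  have h1 := sm_fchr hAi hP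
  have h2 : ∀ k, ContDiffOn ℝ ∞ (fun q => fb (Ai q) (P q) (C q) k) S := fun k =>
    (ContDiffOn.sum fun p _ => ContDiffOn.sum fun q _ =>
      (hAi p q).mul ((h1 k p q).sub (hC k p q))).neg
  have h3 : ∀ m k, ContDiffOn ℝ ∞ (fun q => fdb (Ai q) (P q) (C q) (D q) (dC q) m k) S :=
    fun m k => (ContDiffOn.sum fun p _ => ContDiffOn.sum fun q _ =>
      ((hAi p q).mul ((hD m k p q).sub (hdC m k p q))).add
        ((sm_fdi hAi hP m p q).mul ((h1 k p q).sub (hC k p q)))).neg
  refine (contDiffOn_const.mul (ContDiffOn.sub (ContDiffOn.add (ContDiffOn.sub ?_ ?_) ?_) ?_)).sub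
    (ContDiffOn.sum fun k _ => (((h2 k).mul (hP k i j)).add ((hA k j).mul (h3 i k))).add
      ((hA i k).mul (h3 j k)))
  · exact ContDiffOn.sum fun k _ => hD k k i j
  · exact ContDiffOn.sum fun k _ => hD j k k i
  · exact ContDiffOn.sum fun k _ => ContDiffOn.sum fun l _ => (h1 k k l).mul (h1 l i j)
  · exact ContDiffOn.sum fun k _ => ContDiffOn.sum fun l _ => (h1 k j l).mul (h1 l k i)

end smooth

/-! ### the operator on metric fields -/

/-- the DeTurck vector field `-G^{pq} (Γ(G) - Γ(H))^k_{pq}` -/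
def dtV (G H : MetricField n) (y : En n) : En n := WithLp.toLp 2 fun k =>
  -∑ p, ∑ q, (G y)⁻¹ p q * (christoffel G y k p q - christoffel H y k p q)

/-- the DeTurck operator -/
def DT (G H : MetricField n) (y : En n) (i j : Fin n) : ℝ :=
  -2 * ricci G y i j - lieG (dtV G H) G y i j

/-- first derivatives -/
def j1 (G : MetricField n) (y : En n) : A3 n := fun m i j => pderiv m (fun z => G z i j) y

/-- second derivatives -/
def j2 (G : MetricField n) (y : En n) : A4 n := fun m a i j =>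
  pderiv m (pderiv a fun z => G z i j) y

/-- derivatives of the Christoffel symbols -/
def dchr (G : MetricField n) (y : En n) : A4 n := fun m k i j =>
  pderiv m (fun z => christoffel G z k i j) y

variable {G H : MetricField n} {U : Set (En n)} {y : En n}

theorem dchr_eq (hG : IsRiemannianOn G U) (hy : y ∈ U) :
    dchr G y = fs1 (G y)⁻¹ (j1 G y) + fs2 (G y)⁻¹ (j2 G y) := by
  funext m k i j
  have hi : ∀ a b, DifferentiableAt ℝ (fun z => (G z)⁻¹ a b) y := fun a b =>
    dAt (sm_inv hG a b) hG.isOpen hy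
  have hp : ∀ l a b, DifferentiableAt ℝ (pderiv l fun z => G z a b) y := fun l a b =>
    dAt (sm_pd hG.isOpen (hG.contDiffOn a b) l) hG.isOpen hy
  have h1 : (fun z => christoffel G z k i j) = fun z => (1 / 2) * ∑ l, (G z)⁻¹ k l *
      (pderiv i (fun y => G y j l) z + pderiv j (fun y => G y i l) z -
        pderiv l (fun y => G y i j) z) := rfl
  have h2 : ∀ l, DifferentiableAt ℝ (fun z => pderiv i (fun y => G y j l) z +
      pderiv j (fun y => G y i l) z - pderiv l (fun y => G y i j) z) y := fun l =>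
    ((hp i j l).add (hp j i l)).sub (hp l i j)
  rw [dchr, h1, pd_cmul, pd_sum _ _ fun l _ => (hi k l).fun_mul (h2 l)]
  simp only [Pi.add_apply, fs1, fs2, ← mul_add, ← Finset.sum_add_distrib]
  congr 1
  refine Finset.sum_congr rfl fun l _ => ?_
  rw [pd_mul _ (hi k l) (h2 l), pd_sub _ ((hp i j l).fun_add (hp j i l)) (hp l i j),
    pd_add _ (hp i j l) (hp j i l), pd_ginv' hG hy]
  simp only [fdi, j1, j2]

theorem sm_dtV (hG : IsRiemannianOn G U) (hH : IsRiemannianOn H U) (k : Fin n) :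
    ContDiffOn ℝ ∞ (fun y => dtV G H y k) U :=
  (ContDiffOn.sum fun p _ => ContDiffOn.sum fun q _ =>
    (sm_inv hG p q).mul ((sm_chr hG k p q).sub (sm_chr hH k p q))).neg

theorem contDiffOn_dtV (hG : IsRiemannianOn G U) (hH : IsRiemannianOn H U) :
    ContDiffOn ℝ ∞ (dtV G H) U := contDiffOn_euclidean.2 (sm_dtV hG hH)

theorem pd_dtV (hG : IsRiemannianOn G U) (hH : IsRiemannianOn H U) (hy : y ∈ U) (m k : Fin n) :
    pderiv m (fun z => dtV G H z k) y =
      fdb (G y)⁻¹ (j1 G y) (christoffel H y) (dchr G y) (dchr H y) m k := by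
  have hi : ∀ a b, DifferentiableAt ℝ (fun z => (G z)⁻¹ a b) y := fun a b =>
    dAt (sm_inv hG a b) hG.isOpen hy
  have h1 : ∀ p q, DifferentiableAt ℝ (fun z => christoffel G z k p q) y := fun p q =>
    dAt (sm_chr hG k p q) hG.isOpen hy
  have h2 : ∀ p q, DifferentiableAt ℝ (fun z => christoffel H z k p q) y := fun p q =>
    dAt (sm_chr hH k p q) hG.isOpen hy
  have h3 : (fun z => dtV G H z k) = fun z => -∑ p, ∑ q,
      (G z)⁻¹ p q * (christoffel G z k p q - christoffel H z k p q) := rfl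
  rw [h3, pd_neg, pd_sum _ _ fun p _ => DifferentiableAt.fun_sum fun q _ =>
    (hi p q).fun_mul ((h1 p q).fun_sub (h2 p q)), fdb]
  congr 1
  refine Finset.sum_congr rfl fun p _ => ?_
  rw [pd_sum _ _ fun q _ => (hi p q).fun_mul ((h1 p q).fun_sub (h2 p q))]
  refine Finset.sum_congr rfl fun q _ => ?_
  rw [pd_mul _ (hi p q) ((h1 p q).fun_sub (h2 p q)), pd_sub _ (h1 p q) (h2 p q), pd_ginv' hG hy]
  exact add_comm _ _

/-- **the DeTurck operator is quasilinear elliptic** -/
theorem DT_eq (hG : IsRiemannianOn G U) (hH : IsRiemannianOn H U) (hy : y ∈ U) (i j : Fin n) :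
    DT G H y i j = (∑ k, ∑ l, (G y)⁻¹ k l * j2 G y k l i j) +
      fDT (G y) (G y)⁻¹ (j1 G y) (christoffel H y) (fs1 (G y)⁻¹ (j1 G y)) (dchr H y) i j := by
  rw [← fDT_princ (A := G y) (Ai := (G y)⁻¹) (metric_symm hG hy) (ginv_symm hG hy) (g_ginv hG hy),
    ← dchr_eq hG hy]
  · have h1 : pderiv j (fun y => ∑ k, christoffel G y k k i) y = ∑ k, dchr G y j k k i :=
      pd_sum _ _ fun k _ => dAt (sm_chr hG k k i) hG.isOpen hy
    simp only [DT, ricci, lieG, pd_dtV hG hH hy, h1]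
    rfl
  · intro a b c d
    exact pd_comm a b (c2At (hG.contDiffOn c d) hG.isOpen hy)
  · intro a b c d
    refine pd_congr _ (pd_congr_ev _ ?_)
    filter_upwards [hG.isOpen.mem_nhds hy] with z hz using metric_symm hG hz c d

end Crest.Agent.N207.B

end
end

-- ▼ part N207/B/Dt2
section

/-!
# Row 207, block B STE, part 2 (helper69): naturality of the DeTurck operator
-/

set_option autoImplicit false
set_option linter.unusedSectionVars false

open scoped ContDiff Topology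
open Set Filter
open Crest.GeometryTopology.CoordMetric Crest.GeometryTopology.ChartCurvature
open Crest.Agent.R247 Crest.Agent.R202.Tens

noncomputable section

namespace Crest.Agent.N207.B

variable {n : ℕ} {G G' H H' : MetricField n} {Φ : En n → En n} {V W W' : Set (En n)} {y : En n}

theorem dtV_frame {e : Fin n → En n} (he : Bo84.IsFrame (G y) e) (H : MetricField n) :
    dtV G H y = -∑ a, (Gam G y (e a) (e a) - Gam H y (e a) (e a)) := by
  ext k
  simp only [dtV, PiLp.neg_apply, WithLp.ofLp_sum, Finset.sum_apply, PiLp.sub_apply, Gam_apply,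
    he.inv, ← Finset.sum_sub_distrib, Finset.sum_mul]
  congr 1
  conv_rhs => rw [Finset.sum_comm]
  refine Finset.sum_congr rfl fun p _ => ?_
  rw [Finset.sum_comm]
  exact Finset.sum_congr rfl fun q _ => Finset.sum_congr rfl fun a _ => by ring

theorem dtV_pull (p : Pull G' G Φ V W) (q : Pull H' H Φ V W') (hy : y ∈ V) :
    dtV G H (Φ y) = fderiv ℝ Φ y (dtV G' H' y) := by
  obtain ⟨e, he, he'⟩ := AI.exists_frames p hy
  rw [dtV_frame he, dtV_frame he', map_neg, map_sum]
  congr 1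
  refine Finset.sum_congr rfl fun a _ => ?_
  rw [map_sub, p.gam_eq hy, q.gam_eq hy]
  abel

theorem sum_single2 (f : Fin n → Fin n → ℝ) (i j : Fin n) :
    ∑ a, ∑ c, f a c * (EuclideanSpace.single i (1 : ℝ) : En n) a *
      (EuclideanSpace.single j (1 : ℝ) : En n) c = f i j := by
  simp

theorem lieG_pull (p : Pull G' G Φ V W) (hy : y ∈ V) {b b' : En n → En n}
    (hb' : ContDiffAt ℝ ∞ b' y) (hb : DifferentiableAt ℝ b (Φ y))
    (h : ∀ᶠ z in 𝓝 y, b (Φ z) = fderiv ℝ Φ z (b' z)) (i j : Fin n) :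
    lieG b' G' y i j = ∑ a, ∑ c, lieG b G (Φ y) a c *
      (fderiv ℝ Φ y (EuclideanSpace.single i 1)) a *
      (fderiv ℝ Φ y (EuclideanSpace.single j 1)) c := by
  set F : ℝ × En n → En n := fun q => q.2 + q.1 • b' q.2 with hF
  have hF0 : ∀ w, F (0, w) = w := fun w => by simp [hF]
  have hFs : ContDiffAt ℝ ∞ F (0, y) :=
    contDiffAt_snd.add (contDiffAt_fst.smul
      (ContDiffAt.comp (g := b') (f := Prod.snd) ((0 : ℝ), y) hb' contDiffAt_snd))
  have hFd : ∀ w, HasDerivAt (fun s => F (s, w)) (b' w) 0 := fun w => by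
    have h0 := ((hasDerivAt_id (0 : ℝ)).smul_const (b' w)).const_add w
    rw [one_smul] at h0
    exact h0
  have hΦ : ContDiffAt ℝ ∞ Φ (F (0, y)) := by rw [hF0]; exact p.contDiffAt hy
  have cst : ∀ (A : MetricField n) (z : En n) (a c : Fin n),
      HasDerivAt (fun _ : ℝ => A z a c) ((fun _ _ => 0 : Fin n → Fin n → ℝ) a c) 0 :=
    fun A z a c => hasDerivAt_const _ _
  have h1 := hasDerivAt_pull (Φ := F) (G := fun _ => G') (b := b') hFs
    (by rw [hF0]; exact hb'.differentiableAt (by simp))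
    (Eventually.of_forall fun w => by rw [hF0]; exact hFd w)
    (fun a c => by
      rw [hF0]
      exact DifferentiableAt.comp (g := fun z => G' z a c) (f := Prod.snd) ((0 : ℝ), y)
        (differentiableAt_entry p.riem' hy a c) differentiableAt_snd)
    (cst G' _) (EuclideanSpace.single i 1) (EuclideanSpace.single j 1)
  have h2 := hasDerivAt_pull (Φ := fun q => Φ (F q)) (G := fun _ => G) (b := b)
    (hΦ.comp ((0 : ℝ), y) hFs) (by rw [hF0]; exact hb)
    (by
      filter_upwards [h, p.isOpen.mem_nhds hy] with w hw hw'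
      rw [hF0, hw]
      have h3 : HasFDerivAt Φ (fderiv ℝ Φ w) (F (0, w)) := by
        rw [hF0]
        exact ((p.contDiffAt hw').differentiableAt (by simp)).hasFDerivAt
      exact h3.comp_hasDerivAt 0 (hFd w))
    (fun a c => by
      rw [hF0]
      exact DifferentiableAt.comp (g := fun z => G z a c) (f := Prod.snd) ((0 : ℝ), Φ y)
        (differentiableAt_entry p.riem (p.maps y hy) a c) differentiableAt_snd)
    (cst G _) (EuclideanSpace.single i 1) (EuclideanSpace.single j 1)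
  simp only [hF0, zero_add] at h1 h2
  rw [fderiv_fun_id] at h1
  simp only [ContinuousLinearMap.id_apply, sum_single2] at h1
  refine h1.unique (h2.congr_of_eventuallyEq ?_)
  have c : ContinuousAt (fun s : ℝ => (s, y)) 0 := by fun_prop
  have e1 : ∀ᶠ q in 𝓝 ((0 : ℝ), y), F q ∈ V :=
    hFs.continuousAt.eventually (by rw [hF0]; exact p.isOpen.mem_nhds hy)
  have e2 : ∀ᶠ q in 𝓝 ((0 : ℝ), y), DifferentiableAt ℝ F q :=
    ((hFs.of_le (m := 1) (by simp)).eventually (by simp)).mono fun q hq =>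
      hq.differentiableAt (by simp)
  filter_upwards [c.eventually e1, c.eventually e2] with s hs1 hs2
  have h4 : DifferentiableAt ℝ (fun w => F (s, w)) y :=
    hs2.comp y (by fun_prop : DifferentiableAt ℝ (fun w : En n => (s, w)) y)
  have h5 : fderiv ℝ (fun w => Φ (F (s, w))) y =
      (fderiv ℝ Φ (F (s, y))).comp (fderiv ℝ (fun w => F (s, w)) y) :=
    fderiv_comp y ((p.contDiffAt hs1).differentiableAt (by simp)) h4
  rw [← bil_apply, ← bil_apply, p.bil_eq hs1, h5]
  rfl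

theorem DT_pull (p : Pull G' G Φ V W) (q : Pull H' H Φ V W') (hy : y ∈ V) (i j : Fin n) :
    DT G' H' y i j = ∑ a, ∑ c, DT G H (Φ y) a c *
      (fderiv ℝ Φ y (EuclideanSpace.single i 1)) a *
      (fderiv ℝ Φ y (EuclideanSpace.single j 1)) c := by
  have ho : IsOpen (W ∩ W') := p.riem.isOpen.inter q.riem.isOpen
  have h1 := lieG_pull p hy (b := dtV G H) (b' := dtV G' H')
    ((contDiffOn_dtV p.riem' q.riem').contDiffAt (p.isOpen.mem_nhds hy))
    (((contDiffOn_dtV (riemOn_mono p.riem ho inter_subset_left)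
      (riemOn_mono q.riem ho inter_subset_right)).contDiffAt
        (ho.mem_nhds ⟨p.maps y hy, q.maps y hy⟩)).differentiableAt (by simp))
    (by filter_upwards [p.isOpen.mem_nhds hy] with z hz using dtV_pull p q hz) i j
  have h2 := p.ricci_pull hy (EuclideanSpace.single i 1) (EuclideanSpace.single j 1)
  rw [sum_single2] at h2
  rw [DT, h1, h2, Finset.mul_sum, ← Finset.sum_sub_distrib]
  refine Finset.sum_congr rfl fun a _ => ?_
  rw [Finset.mul_sum, ← Finset.sum_sub_distrib]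
  refine Finset.sum_congr rfl fun c _ => ?_
  rw [DT]
  ring

theorem DT_symm {U : Set (En n)} (hG : IsRiemannianOn G U) (hy : y ∈ U) (H : MetricField n)
    (i j : Fin n) : DT G H y i j = DT G H y j i := by
  rw [DT, DT, R249.Bia3_104.ricci_symm hG hy i j]
  congr 1
  refine Finset.sum_congr rfl fun k _ => ?_
  rw [pderiv_metric_symm hG hy k i j, metric_symm hG hy k j, metric_symm hG hy i k]
  ring

/-! ### the trace of the Hessian of a vector valued function -/

variable {E : Type*} [NormedAddCommGroup E] [NormedSpace ℝ E]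

/-- `G^{kl} (∂ₖ∂ₗ f - Γ(H)^m_{kl} ∂ₘ f)` -/
def trH (G H : MetricField n) (f : En n → E) (y : En n) : E :=
  P.Lop (G y)⁻¹ f y - ∑ k, ∑ l, ∑ m, ((G y)⁻¹ k l * christoffel H y m k l) • P.pd m f y

theorem pd_clm (L : E →L[ℝ] ℝ) {f : En n → E} (hf : DifferentiableAt ℝ f y) (k : Fin n) :
    pderiv k (fun z => L (f z)) y = L (P.pd k f y) :=
  congrArg (fun T : En n →L[ℝ] ℝ => T (EuclideanSpace.single k 1))
    (L.hasFDerivAt.comp y hf.hasFDerivAt).fderiv

theorem clm_trH (L : E →L[ℝ] ℝ) (G H : MetricField n) {f : En n → E} (hf : ContDiffAt ℝ 2 f y) :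
    L (trH G H f y) = trT G (hessT H fun z => L (f z)) y ![] := by
  have h1 : ∀ l, pderiv l (fun z => L (f z)) =ᶠ[𝓝 y] fun z => L (P.pd l f z) := fun l => by
    filter_upwards [hf.eventually (by simp)] with z hz using
      pd_clm L (hz.differentiableAt (by simp)) l
  have h2 : ∀ k l, pderiv k (pderiv l fun z => L (f z)) y = L (P.pd k (P.pd l f) y) := by
    intro k l
    rw [pd_congr k (h1 l)]
    exact pd_clm L ((P.contDiffAt_pd (m := 1) hf (by norm_num) l).differentiableAt (by simp)) k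
  rw [trT_zero_rank]
  simp only [hessT_apply, h2, fun m => (h1 m).eq_of_nhds, trH, P.Lop, map_sub, map_sum, map_smul,
    smul_eq_mul, mul_sub, Finset.sum_sub_distrib, Finset.mul_sum, mul_assoc]

theorem trH_pull (p : Pull G' G Φ V W) (q : Pull H' H Φ V W') (hy : y ∈ V) {f : En n → E}
    (hf : ContDiffAt ℝ 2 f (Φ y)) : trH G' H' (fun z => f (Φ z)) y = trH G H f (Φ y) := by
  refine SeparatingDual.eq_iff_forall_dual_eq (R := ℝ).2 fun L => ?_
  have h1 : ContDiffAt ℝ 2 (fun z => f (Φ z)) y :=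
    hf.comp y ((p.contDiffAt hy).of_le (by norm_cast))
  have h2 : ContDiffAt ℝ 2 (fun z => L (f z)) (Φ y) := L.contDiff.contDiffAt.comp _ hf
  have h3 := AI.hessT_pull q hy h2
  have h4 := AI.trT_pullT (k := 0) p hy (hessT H fun z => L (f z))
  rw [clm_trH L G' H' h1, clm_trH L G H hf]
  have h5 : trT G' (hessT H' fun z => L (f (Φ z))) y =
      trT G' (pullT Φ (hessT H fun z => L (f z))) y := by
    funext I
    simp only [trT, h3]
  rw [h5, h4, pullT, AI.evT_zero_rank]

theorem trH_congr {f f' : En n → E} (h : f =ᶠ[𝓝 y] f') (G H : MetricField n) :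
    trH G H f y = trH G H f' y := by
  simp only [trH, P.Lop, fun k => P.pd_congr h k, fun k l => P.pd_congr (P.pd_congr_ev h l) k]

end Crest.Agent.N207.B

end
end

-- ▼ part N207/B/Emb
section

/-!
# Row 207, block B STE, part 3 (helper69): symmetric 2-tensors as vector valued functions

`Emb n M V`: `c x y` restricts a vector of `V` to a symmetric matrix in the chart at `x`, `e x y` is a
right inverse; both are compatible with the changes of charts (Whitney embedding).
-/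

set_option autoImplicit false
set_option linter.unusedSectionVars false

open scoped ContDiff Manifold Topology Matrix
open Set Filter
open Crest.GeometryTopology.CoordMetric
open Crest.Agent.R247 Crest.Agent.R202.Tens

noncomputable section

namespace Crest.Agent.N207.B

/-- Jacobian matrix of a linear map -/
def jac {n N : ℕ} (L : En n →L[ℝ] En N) : Matrix (Fin N) (Fin n) ℝ :=
  Matrix.of fun a i => L (EuclideanSpace.single i 1) a

theorem jac_mulVec {n N : ℕ} (L : En n →L[ℝ] En N) (v : En n) :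
    jac L *ᵥ (WithLp.ofLp v) = WithLp.ofLp (L v) := by
  funext a
  conv_rhs => rw [eq_sum_single v]
  simp only [map_sum, map_smul, WithLp.ofLp_sum, Finset.sum_apply, WithLp.ofLp_smul,
    Pi.smul_apply, smul_eq_mul, Matrix.mulVec, dotProduct, jac, Matrix.of_apply, mul_comm]

theorem jac_inj {n N : ℕ} {L : En n →L[ℝ] En N} (h : Function.Injective L) :
    Function.Injective (jac L).mulVec := by
  intro u v huv
  have h1 := jac_mulVec L (WithLp.toLp 2 u)
  have h2 := jac_mulVec L (WithLp.toLp 2 v)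
  have h3 : L (WithLp.toLp 2 u) = L (WithLp.toLp 2 v) :=
    WithLp.ofLp_injective 2 (h1.symm.trans (huv.trans h2))
  exact WithLp.toLp_injective 2 (h h3)

theorem jac_comp {n m N : ℕ} (L : En m →L[ℝ] En N) (L' : En n →L[ℝ] En m) :
    jac (L.comp L') = jac L * jac L' := by
  ext a i
  have h := congrFun (jac_mulVec L (L' (EuclideanSpace.single i 1))) a
  exact h.symm

theorem conj_apply {ι κ : Type*} [Fintype κ] (J : Matrix κ ι ℝ) (S : Matrix κ κ ℝ) (i j : ι) :
    (Jᵀ * S * J) i j = ∑ a, ∑ b, S a b * J a i * J b j := by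
  simp only [Matrix.mul_apply, Matrix.transpose_apply, Finset.sum_mul]
  rw [Finset.sum_comm]
  exact Finset.sum_congr rfl fun a _ => Finset.sum_congr rfl fun b _ => by ring

/-- left inverse of an injective matrix -/
def linv {n N : ℕ} (J : Matrix (Fin N) (Fin n) ℝ) : Matrix (Fin n) (Fin N) ℝ := (Jᵀ * J)⁻¹ * Jᵀ

theorem det_gram {n N : ℕ} {J : Matrix (Fin N) (Fin n) ℝ} (h : Function.Injective J.mulVec) :
    (Jᵀ * J).det ≠ 0 := by
  have h1 := (Matrix.PosDef.conjTranspose_mul_self J h).det_pos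
  rw [Matrix.conjTranspose_eq_transpose_of_trivial] at h1
  exact h1.ne'

theorem linv_mul {n N : ℕ} {J : Matrix (Fin N) (Fin n) ℝ} (h : Function.Injective J.mulVec) :
    linv J * J = 1 := by
  rw [linv, Matrix.mul_assoc, Matrix.nonsing_inv_mul _ (det_gram h).isUnit]

theorem mul_linv_mul {n N : ℕ} (J : Matrix (Fin N) (Fin n) ℝ) {D : Matrix (Fin n) (Fin n) ℝ}
    (h : Function.Injective D.mulVec) : D * linv (J * D) = linv J := by
  have hD : IsUnit D.det := (Matrix.isUnit_iff_isUnit_det D).1 (Matrix.mulVec_injective_iff_isUnit.1 h)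
  have hD' : IsUnit Dᵀ.det := by rwa [Matrix.det_transpose]
  have h1 : (J * D)ᵀ * (J * D) = Dᵀ * ((Jᵀ * J) * D) := by
    simp only [Matrix.transpose_mul, Matrix.mul_assoc]
  rw [linv, h1, Matrix.mul_inv_rev, Matrix.mul_inv_rev, Matrix.transpose_mul, linv]
  simp only [Matrix.mul_assoc]
  rw [Matrix.mul_nonsing_inv_cancel_left _ _ hD, Matrix.nonsing_inv_mul_cancel_left _ _ hD']

theorem sm_linv {X : Type*} [NormedAddCommGroup X] [NormedSpace ℝ X] {S : Set X} {n N : ℕ}
    {J : X → Matrix (Fin N) (Fin n) ℝ} (hJ : ∀ a i, ContDiffOn ℝ ∞ (fun x => J x a i) S)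
    (h : ∀ x ∈ S, Function.Injective (J x).mulVec) (i : Fin n) (a : Fin N) :
    ContDiffOn ℝ ∞ (fun x => linv (J x) i a) S := by
  have hK : ∀ i j, ContDiffOn ℝ ∞ (fun x => ((J x)ᵀ * J x) i j) S := fun i j => by
    simp only [Matrix.mul_apply, Matrix.transpose_apply]
    exact ContDiffOn.sum fun a _ => (hJ a i).mul (hJ a j)
  have hdet : ∀ {A : X → Matrix (Fin n) (Fin n) ℝ},
      (∀ i j, ContDiffOn ℝ ∞ (fun x => A x i j) S) → ContDiffOn ℝ ∞ (fun x => (A x).det) S := by
    intro A hA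
    simp only [Matrix.det_apply]
    refine ContDiffOn.sum fun σ _ => ?_
    have : ContDiffOn ℝ ∞ (fun x => ∏ i, A x (σ i) i) S := contDiffOn_prod fun i _ => hA _ _
    exact this.const_smul _
  have hi : ∀ i j, ContDiffOn ℝ ∞ (fun x => ((J x)ᵀ * J x)⁻¹ i j) S := by
    intro i j
    have hadj : ContDiffOn ℝ ∞ (fun x => ((J x)ᵀ * J x).adjugate i j) S := by
      simp only [Matrix.adjugate_apply]
      refine hdet fun a b => ?_
      by_cases h : a = j
      · subst h
        simp only [Matrix.updateRow_self]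
        exact contDiffOn_const
      · simp only [Matrix.updateRow_ne h]
        exact hK _ _
    refine (((hdet hK).inv fun x hx => det_gram (h x hx)).mul hadj).congr fun x _ => ?_
    simp only [Matrix.inv_def, Ring.inverse_eq_inv', Matrix.smul_apply, smul_eq_mul]
    rfl
  simp only [linv, Matrix.mul_apply (M := ((J _)ᵀ * J _)⁻¹), Matrix.transpose_apply]
  exact ContDiffOn.sum fun k _ => (hi i k).mul (hJ a k)

variable {n : ℕ} {M : Type*} [TopologicalSpace M] [ChartedSpace (En n) M]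
  [IsManifold 𝓘(ℝ, En n) ∞ M]

/-- `D_{ai} = ∂ᵢ (trans x₀ x₁)^a` -/
abbrev dtr (n : ℕ) {M : Type*} [TopologicalSpace M] [ChartedSpace (En n) M] (x₀ x₁ : M)
    (y : En n) (a i : Fin n) : ℝ :=
  fderiv ℝ (Bo84.trans x₀ x₁) y (EuclideanSpace.single i 1) a

/-- symmetric 2-tensors as a quotient and as a subbundle of `M × V` -/
structure Emb (n : ℕ) (M : Type*) [TopologicalSpace M] [ChartedSpace (En n) M] (V : Type)
    [NormedAddCommGroup V] [NormedSpace ℝ V] where
  c : M → En n → Fin n → Fin n → V →L[ℝ] ℝ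
  e : M → En n → Fin n → Fin n → V
  sc : ∀ x i j, ContDiffOn ℝ ∞ (fun y => c x y i j) (tg n x)
  se : ∀ x i j, ContDiffOn ℝ ∞ (fun y => e x y i j) (tg n x)
  symm : ∀ x y i j v, c x y i j v = c x y j i v
  dual : ∀ x, ∀ y ∈ tg n x, ∀ S : Fin n → Fin n → ℝ, (∀ i j, S i j = S j i) → ∀ i j,
    c x y i j (∑ k, ∑ l, S k l • e x y k l) = S i j
  trc : ∀ x₀ x₁, ∀ y ∈ Bo84.tdom (n := n) x₀ x₁, ∀ v i j, c x₀ y i j v =
    ∑ a, ∑ b, c x₁ (Bo84.trans x₀ x₁ y) a b v * dtr n x₀ x₁ y a i * dtr n x₀ x₁ y b j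
  tre : ∀ x₀ x₁, ∀ y ∈ Bo84.tdom (n := n) x₀ x₁, ∀ S S' : Fin n → Fin n → ℝ,
    (∀ i j, S' i j = ∑ a, ∑ b, S a b * dtr n x₀ x₁ y a i * dtr n x₀ x₁ y b j) →
    ∑ i, ∑ j, S' i j • e x₀ y i j = ∑ a, ∑ b, S a b • e x₁ (Bo84.trans x₀ x₁ y) a b

/-- coordinate functional -/
def prj2 {N : ℕ} (a b : Fin N) : (Fin N → Fin N → ℝ) →L[ℝ] ℝ :=
  (ContinuousLinearMap.proj (R := ℝ) (φ := fun _ : Fin N => ℝ) b).comp
    (ContinuousLinearMap.proj (R := ℝ) (φ := fun _ : Fin N => Fin N → ℝ) a)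

/-- restriction functional -/
def cOf {N : ℕ} (J : Matrix (Fin N) (Fin n) ℝ) (i j : Fin n) : (Fin N → Fin N → ℝ) →L[ℝ] ℝ :=
  ∑ a, ∑ b, ((1 / 2) * (J a i * J b j + J a j * J b i)) • prj2 a b

theorem cOf_apply {N : ℕ} (J : Matrix (Fin N) (Fin n) ℝ) (i j : Fin n) (v : Fin N → Fin N → ℝ) :
    cOf J i j v = (1 / 2) * ((Jᵀ * Matrix.of v * J) i j + (Jᵀ * Matrix.of v * J) j i) := by
  simp only [cOf, conj_apply, _root_.sum_apply, _root_.smul_apply, smul_eq_mul,
    ← Finset.sum_add_distrib, Finset.mul_sum, Matrix.of_apply]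
  refine Finset.sum_congr rfl fun a _ => Finset.sum_congr rfl fun b _ => ?_
  have : prj2 a b v = v a b := rfl
  rw [this]
  ring

theorem of_sum_e {N : ℕ} (Q : Matrix (Fin n) (Fin N) ℝ) (S : Fin n → Fin n → ℝ) :
    Matrix.of (∑ k, ∑ l, S k l • (fun a b => Q k a * Q l b : Fin N → Fin N → ℝ)) =
      Qᵀ * Matrix.of S * Q := by
  ext a b
  simp only [conj_apply, Matrix.of_apply, Finset.sum_apply, Pi.smul_apply, smul_eq_mul, mul_assoc]

theorem exists_emb [T2Space M] [CompactSpace M] :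
    ∃ N : ℕ, Nonempty (Emb n M (Fin N → Fin N → ℝ)) := by
  obtain ⟨N, ι, hι, -, hinj⟩ := exists_embedding_euclidean_of_compact (I := 𝓘(ℝ, En n)) (M := M)
  let f : M → En n → En N := fun x y => ι ((chartAt (En n) x).symm y)
  let J : M → En n → Matrix (Fin N) (Fin n) ℝ := fun x y => jac (fderiv ℝ (f x) y)
  have hf : ∀ x, ContDiffOn ℝ ∞ (f x) (tg n x) := fun x =>
    contMDiffOn_iff_contDiffOn.1 (hι.comp_contMDiffOn contMDiffOn_chart_symm)
  have hJ : ∀ x a i, ContDiffOn ℝ ∞ (fun y => J x y a i) (tg n x) := fun x a i =>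
    (EuclideanSpace.proj a : En N →L[ℝ] ℝ).contDiff.comp_contDiffOn
      (((hf x).fderiv_of_isOpen (chartAt (En n) x).open_target (by simp)).clm_apply
        contDiffOn_const)
  have hi : ∀ x, ∀ y ∈ tg n x, Function.Injective (J x y).mulVec := by
    intro x y hy
    refine jac_inj ?_
    have h1 : MDifferentiableAt 𝓘(ℝ, En n) 𝓘(ℝ, En n) (chartAt (En n) x).symm y :=
      (mdifferentiable_chart (I := 𝓘(ℝ, En n)) x).mdifferentiableAt_symm hy
    have h2 := mfderiv_comp y ((hι _).mdifferentiableAt (by simp)) h1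
    rw [mfderiv_eq_fderiv] at h2
    have h3 : fderiv ℝ (f x) y = _ := h2
    rw [h3]
    exact (hinj _).comp (Bo84.dSy_injective hy)
  have htr : ∀ x₀ x₁ : M, ∀ y ∈ Bo84.tdom (n := n) x₀ x₁,
      J x₀ y = J x₁ (Bo84.trans x₀ x₁ y) * jac (fderiv ℝ (Bo84.trans x₀ x₁) y) := by
    intro x₀ x₁ y hy
    have h1 : f x₀ =ᶠ[𝓝 y] f x₁ ∘ Bo84.trans x₀ x₁ := by
      filter_upwards [(Bo84.isOpen_tdom x₀ x₁).mem_nhds hy] with z hz
      exact congrArg ι (Bo84.symm_trans hz).symm
    have h2 := fderiv_comp y (((hf x₁).contDiffAt ((chartAt (En n) x₁).open_target.mem_nhds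
      (Bo84.trans_mem hy))).differentiableAt (by simp)) (((Bo84.contDiffOn_trans x₀ x₁).contDiffAt
        ((Bo84.isOpen_tdom x₀ x₁).mem_nhds hy)).differentiableAt (by simp))
    rw [← jac_comp, ← h2, ← h1.fderiv_eq]
  have hD : ∀ x₀ x₁ : M, ∀ y ∈ Bo84.tdom (n := n) x₀ x₁,
      Function.Injective (jac (fderiv ℝ (Bo84.trans (n := n) x₀ x₁) y)).mulVec := by
    intro x₀ x₁ y hy
    refine jac_inj fun u v h => Bo84.dSy_injective hy.1 ?_
    rw [← Bo84.dSy_trans hy, ← Bo84.dSy_trans hy, h]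
  refine ⟨N, ⟨⟨fun x y i j => cOf (J x y) i j,
    fun x y i j a b => linv (J x y) i a * linv (J x y) j b, ?_, ?_, ?_, ?_, ?_, ?_⟩⟩⟩
  · intro x i j
    refine ContDiffOn.sum fun a _ => ContDiffOn.sum fun b _ => ContDiffOn.smul_const ?_ _
    exact contDiffOn_const.mul (((hJ x a i).mul (hJ x b j)).add ((hJ x a j).mul (hJ x b i)))
  · intro x i j
    exact contDiffOn_pi.2 fun a => contDiffOn_pi.2 fun b =>
      (sm_linv (hJ x) (hi x) i a).mul (sm_linv (hJ x) (hi x) j b)
  · intro x y i j v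
    rw [cOf_apply, cOf_apply, add_comm]
  · intro x y hy S hS i j
    have h1 : (J x y)ᵀ * ((linv (J x y))ᵀ * Matrix.of S * linv (J x y)) * J x y = Matrix.of S := by
      have h2 := linv_mul (hi x y hy)
      have h3 : (J x y)ᵀ * (linv (J x y))ᵀ = 1 := by
        rw [← Matrix.transpose_mul, h2, Matrix.transpose_one]
      rw [Matrix.mul_assoc, Matrix.mul_assoc, Matrix.mul_assoc, h2, Matrix.mul_one,
        ← Matrix.mul_assoc, h3, Matrix.one_mul]
    rw [cOf_apply, of_sum_e, h1, Matrix.of_apply, Matrix.of_apply, hS j i]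
    ring
  · intro x₀ x₁ y hy v i j
    set D := jac (fderiv ℝ (Bo84.trans (n := n) x₀ x₁) y) with hDdef
    set J1 := J x₁ (Bo84.trans x₀ x₁ y)
    have h1 : (J1 * D)ᵀ * Matrix.of v * (J1 * D) = Dᵀ * (J1ᵀ * Matrix.of v * J1) * D := by
      simp only [Matrix.transpose_mul, Matrix.mul_assoc]
    simp only [cOf_apply]
    rw [htr x₀ x₁ y hy, h1, conj_apply, conj_apply, Finset.sum_comm (f := fun a b =>
      (J1ᵀ * Matrix.of v * J1) a b * D a j * D b i), ← Finset.sum_add_distrib, Finset.mul_sum]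
    refine Finset.sum_congr rfl fun a _ => ?_
    rw [← Finset.sum_add_distrib, Finset.mul_sum]
    refine Finset.sum_congr rfl fun b _ => ?_
    change _ = _ * D a i * D b j
    ring
  · intro x₀ x₁ y hy S S' hS
    set D := jac (fderiv ℝ (Bo84.trans (n := n) x₀ x₁) y) with hDdef
    have h1 : Matrix.of S' = Dᵀ * Matrix.of S * D := by
      ext i j
      rw [conj_apply]
      exact hS i j
    refine Matrix.of.injective ?_
    rw [of_sum_e, of_sum_e, h1, ← mul_linv_mul (J x₁ (Bo84.trans x₀ x₁ y)) (hD x₀ x₁ y hy),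
      htr x₀ x₁ y hy]
    simp only [Matrix.transpose_mul, Matrix.mul_assoc]
    rfl

end Crest.Agent.N207.B

end
end

-- ▼ part N207/B/Ste1

/-!
# Row 207, block B STE, part 4 (helper69): the DeTurck operator on vector valued functions
-/

set_option autoImplicit false
set_option linter.unusedSectionVars false

open scoped ContDiff Manifold Topology Matrix
open Set Filter
open Crest.GeometryTopology.CoordMetric Crest.GeometryTopology.ChartCurvature
open Crest.Agent.R247 Crest.Agent.R202.Tens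

noncomputable section

namespace Crest.Agent.N207.B

variable {n : ℕ} {M : Type*} [TopologicalSpace M] [ChartedSpace (En n) M]
  [IsManifold 𝓘(ℝ, En n) ∞ M] {V : Type} [NormedAddCommGroup V] [NormedSpace ℝ V]

theorem eventually_posDef {X : Type*} [TopologicalSpace X] {A : X → Matrix (Fin n) (Fin n) ℝ}
    {x : X} (hc : ∀ i j, ContinuousAt (fun z => A z i j) x) (hs : ∀ z i j, A z i j = A z j i)
    (hp : (A x).PosDef) : ∀ᶠ z in 𝓝 x, (A z).PosDef := by
  obtain ⟨c, hc0, hl⟩ := exists_lower (bil (A x)) fun v hv => bil_pos_of hp hv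
  have h1 : ContinuousAt (fun z => ∑ i, ∑ j, |A z i j - A x i j|) x :=
    tendsto_finsetSum _ fun i _ => tendsto_finsetSum _ fun j _ =>
      ((hc i j).sub continuousAt_const).abs
  have h2 : ∀ᶠ z in 𝓝 x, ∑ i, ∑ j, |A z i j - A x i j| < c :=
    h1.eventually (Iio_mem_nhds (by simpa using hc0))
  filter_upwards [h2] with z hz
  refine posDef_of_bil (hs z) fun v hv => ?_
  have h3 : bil (A x) v v - bil (A z) v v ≤ (∑ i, ∑ j, |A z i j - A x i j|) * ‖v‖ ^ 2 := by
    simp only [bil_apply, ← Finset.sum_sub_distrib, Finset.sum_mul]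
    refine Finset.sum_le_sum fun i _ => Finset.sum_le_sum fun j _ => ?_
    have h4 : |v i * v j| ≤ ‖v‖ ^ 2 := by
      rw [abs_mul, sq]
      exact mul_le_mul (PiLp.norm_apply_le v i) (PiLp.norm_apply_le v j) (abs_nonneg _)
        (norm_nonneg _)
    have h5 : A x i j * v i * v j - A z i j * v i * v j = -((A z i j - A x i j) * (v i * v j)) := by
      ring
    rw [h5]
    refine (neg_le_abs _).trans ?_
    rw [abs_mul]
    exact mul_le_mul_of_nonneg_left h4 (abs_nonneg _)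
  have h5 : 0 < ‖v‖ ^ 2 := by positivity
  have h6 := hl v
  nlinarith

theorem pull_mono {G G' : MetricField n} {Φ : En n → En n} {U U' W : Set (En n)}
    (p : Pull G' G Φ U W) (hU : IsOpen U') (h : U' ⊆ U) : Pull G' G Φ U' W :=
  ⟨hU, p.riem, fun y hy => p.maps y (h hy), p.smooth.mono h, fun y hy => p.pull y (h hy),
    fun y hy => p.inj y (h hy)⟩

theorem inj_trans {x₀ x₁ : M} {y : En n} (hy : y ∈ Bo84.tdom x₀ x₁) :
    Function.Injective (fderiv ℝ (Bo84.trans (n := n) x₀ x₁) y) := fun u v h =>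
  Bo84.dSy_injective hy.1 (by rw [← Bo84.dSy_trans hy, ← Bo84.dSy_trans hy, h])

namespace Emb

variable (E : Emb n M V) (h : Met n M)

/-- the symmetric matrix of a vector -/
def cm (x : M) (y : En n) (v : V) : Matrix (Fin n) (Fin n) ℝ := Matrix.of fun i j => E.c x y i j v

/-- the matrix field of a function -/
def Gf (x : M) (f : En n → V) : MetricField n := fun y => E.cm x y (f y)

/-- the operator in the chart at `x` -/
def opC (x : M) (f : En n → V) (y : En n) : V :=
  trH (E.Gf x f) (h.G x) f y + ∑ i, ∑ j, (DT (E.Gf x f) (h.G x) y i j -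
    E.c x y i j (trH (E.Gf x f) (h.G x) f y)) • E.e x y i j

/-- the operator -/
def Op (u : M → V) (p : M) : V := E.opC h p (P.rd n p u) (ctr n p)

/-- admissible values -/
def O : Set (M × V) := {q | (E.cm q.1 (ctr n q.1) q.2).PosDef}

variable {E h}

theorem posDef_tr {x₀ x₁ : M} {y : En n} (hy : y ∈ Bo84.tdom x₀ x₁) {v : V}
    (hp : (E.cm x₁ (Bo84.trans x₀ x₁ y) v).PosDef) : (E.cm x₀ y v).PosDef := by
  have h1 := hp.conjTranspose_mul_mul_same (jac_inj (inj_trans hy))
  rw [Matrix.conjTranspose_eq_transpose_of_trivial] at h1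
  convert h1 using 1
  ext i j
  rw [conj_apply]
  exact E.trc x₀ x₁ y hy v i j

theorem posDef_iff {x : M} {y : En n} (hy : y ∈ tg n x) (v : V) :
    (E.cm x y v).PosDef ↔ ((chartAt (En n) x).symm y, v) ∈ E.O := by
  refine ⟨fun hp => ?_, fun hp => posDef_tr (mem_tdom_self hy) hp⟩
  set p := (chartAt (En n) x).symm y with hpdef
  have h1 : ctr n p ∈ Bo84.tdom p x := by
    refine ⟨ctr_mem p, ?_⟩
    show (chartAt (En n) p).symm (ctr n p) ∈ (chartAt (En n) x).source
    rw [symm_ctr]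
    exact (chartAt (En n) x).map_target hy
  refine posDef_tr h1 ?_
  have h2 : Bo84.trans p x (ctr n p) = y := by
    rw [Bo84.trans, symm_ctr]
    exact (chartAt (En n) x).right_inv hy
  rwa [h2]

theorem isOpen_O : IsOpen E.O := by
  refine isOpen_iff_mem_nhds.2 fun q hq => ?_
  have hs := mem_chart_source (En n) q.1
  have h1 : ContinuousAt (fun z : M × V => chartAt (En n) q.1 z.1) q :=
    ContinuousAt.comp (g := chartAt (En n) q.1) ((chartAt (En n) q.1).continuousAt hs)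
      continuousAt_fst
  have h2 := eventually_posDef (A := fun z : M × V => E.cm q.1 (chartAt (En n) q.1 z.1) z.2)
    (x := q) (fun i j => ContinuousAt.clm_apply (ContinuousAt.comp (g := fun y => E.c q.1 y i j)
      ((E.sc q.1 i j).continuousOn.continuousAt ((isOpen_tg q.1).mem_nhds (ctr_mem q.1))) h1)
      continuousAt_snd) (fun z i j => E.symm _ _ i j _) hq
  filter_upwards [h2, continuousAt_fst.eventually
    ((chartAt (En n) q.1).open_source.mem_nhds hs)] with z h3 h4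
  have h5 := (posDef_iff ((chartAt (En n) q.1).map_source h4) z.2).1 h3
  rwa [(chartAt (En n) q.1).left_inv h4] at h5

/-- an open set read in a chart -/
def chW (n : ℕ) {M : Type*} [TopologicalSpace M] [ChartedSpace (En n) M] (x : M) (W : Set M) :
    Set (En n) := tg n x ∩ (chartAt (En n) x).symm ⁻¹' W

theorem isOpen_chW (x : M) {W : Set M} (hW : IsOpen W) : IsOpen (chW n x W) :=
  (chartAt (En n) x).isOpen_inter_preimage_symm hW

theorem sm_rd {u : M → V} {W : Set M} (hu : ContMDiffOn 𝓘(ℝ, En n) 𝓘(ℝ, V) ∞ u W) (x : M) :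
    ContDiffOn ℝ ∞ (P.rd n x u) (chW n x W) :=
  contMDiffOn_iff_contDiffOn.1
    (hu.comp (contMDiffOn_chart_symm.mono inter_subset_left) fun _ hy => hy.2)

theorem riem_Gf {x : M} {f : En n → V} {U : Set (En n)} (hU : IsOpen U) (hs : U ⊆ tg n x)
    (hf : ContDiffOn ℝ ∞ f U) (hp : ∀ y ∈ U, ((chartAt (En n) x).symm y, f y) ∈ E.O) :
    IsRiemannianOn (E.Gf x f) U :=
  ⟨hU, fun i j => ((E.sc x i j).mono hs).clm_apply hf,
    fun y hy => (posDef_iff (hs hy) _).2 (hp y hy)⟩

variable {u : M → V} {W : Set M}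

theorem riem_rd (hW : IsOpen W) (hu : ContMDiffOn 𝓘(ℝ, En n) 𝓘(ℝ, V) ∞ u W)
    (hO : ∀ p ∈ W, (p, u p) ∈ E.O) (x : M) : IsRiemannianOn (E.Gf x (P.rd n x u)) (chW n x W) :=
  riem_Gf (isOpen_chW x hW) inter_subset_left (sm_rd hu x) fun _ hy => hO _ hy.2

theorem rd_trans (u : M → V) {x₀ x₁ : M} {y : En n} (hy : y ∈ Bo84.tdom x₀ x₁) :
    P.rd n x₀ u y = P.rd n x₁ u (Bo84.trans x₀ x₁ y) := congrArg u (Bo84.symm_trans hy).symm

theorem pull_rd (hW : IsOpen W) (hu : ContMDiffOn 𝓘(ℝ, En n) 𝓘(ℝ, V) ∞ u W)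
    (hO : ∀ p ∈ W, (p, u p) ∈ E.O) (x₀ x₁ : M) :
    Pull (E.Gf x₀ (P.rd n x₀ u)) (E.Gf x₁ (P.rd n x₁ u)) (Bo84.trans x₀ x₁)
      (Bo84.tdom x₀ x₁ ∩ chW n x₀ W) (chW n x₁ W) where
  isOpen := (Bo84.isOpen_tdom x₀ x₁).inter (isOpen_chW x₀ hW)
  riem := riem_rd hW hu hO x₁
  maps y hy := ⟨Bo84.trans_mem hy.1, by
    show (chartAt (En n) x₁).symm (Bo84.trans x₀ x₁ y) ∈ W
    rw [Bo84.symm_trans hy.1]
    exact hy.2.2⟩
  smooth := (Bo84.contDiffOn_trans x₀ x₁).mono inter_subset_left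
  pull y hy i j := by
    show E.c x₀ y i j (P.rd n x₀ u y) = _
    rw [rd_trans u hy.1]
    exact E.trc x₀ x₁ y hy.1 _ i j
  inj y hy := inj_trans hy.1

theorem opC_tr (hW : IsOpen W) (hu : ContMDiffOn 𝓘(ℝ, En n) 𝓘(ℝ, V) ∞ u W)
    (hO : ∀ p ∈ W, (p, u p) ∈ E.O) {x₀ x₁ : M} {y : En n} (hy : y ∈ Bo84.tdom x₀ x₁)
    (hyW : (chartAt (En n) x₀).symm y ∈ W) :
    E.opC h x₀ (P.rd n x₀ u) y = E.opC h x₁ (P.rd n x₁ u) (Bo84.trans x₀ x₁ y) := by
  have p := pull_rd hW hu hO x₀ x₁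
  have q := pull_mono (h.pull_trans x₀ x₁) p.isOpen inter_subset_left
  have hy' : y ∈ Bo84.tdom x₀ x₁ ∩ chW n x₀ W := ⟨hy, hy.1, hyW⟩
  have h1 : trH (E.Gf x₀ (P.rd n x₀ u)) (h.G x₀) (P.rd n x₀ u) y =
      trH (E.Gf x₁ (P.rd n x₁ u)) (h.G x₁) (P.rd n x₁ u) (Bo84.trans x₀ x₁ y) := by
    rw [← trH_pull p q hy' (c2At' (sm_rd hu x₁) p.riem.isOpen (p.maps y hy'))]
    refine trH_congr ?_ _ _
    filter_upwards [(Bo84.isOpen_tdom x₀ x₁).mem_nhds hy] with z hz using rd_trans u hz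
  rw [opC, opC, h1]
  congr 1
  refine E.tre x₀ x₁ y hy _ _ fun i j => ?_
  rw [DT_pull p q hy', E.trc x₀ x₁ y hy, ← Finset.sum_sub_distrib]
  refine Finset.sum_congr rfl fun a _ => ?_
  rw [← Finset.sum_sub_distrib]
  exact Finset.sum_congr rfl fun b _ => by ring
where
  c2At' {f : En n → V} {U : Set (En n)} {y : En n} (hf : ContDiffOn ℝ ∞ f U) (hU : IsOpen U)
      (hy : y ∈ U) : ContDiffAt ℝ 2 f y := (hf.contDiffAt (hU.mem_nhds hy)).of_le (by norm_cast)

theorem Op_chart (hW : IsOpen W) (hu : ContMDiffOn 𝓘(ℝ, En n) 𝓘(ℝ, V) ∞ u W)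
    (hO : ∀ p ∈ W, (p, u p) ∈ E.O) {x : M} {y : En n} (hy : y ∈ tg n x)
    (hyW : (chartAt (En n) x).symm y ∈ W) :
    E.Op h u ((chartAt (En n) x).symm y) = E.opC h x (P.rd n x u) y :=
  (opC_tr hW hu hO (mem_tdom_self hy) hyW).symm

/-- the restriction of the operator is the DeTurck operator -/
theorem c_opC {x : M} {f : En n → V} {U : Set (En n)} {y : En n}
    (hG : IsRiemannianOn (E.Gf x f) U) (hy : y ∈ U) (hy' : y ∈ tg n x) (i j : Fin n) :
    E.c x y i j (E.opC h x f y) = DT (E.Gf x f) (h.G x) y i j := by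
  rw [opC, map_add, E.dual x y hy' _ fun i j => by rw [DT_symm hG hy, E.symm x y i j]]
  ring

/-! ### the coefficients -/

variable (E h)

/-- first derivatives of the metric -/
def p1 (x : M) (y : En n) (v : V) (p : Fin n → V) : A3 n := fun m i j =>
  P.pd m (fun z => E.c x z i j) y v + E.c x y i j (p m)

/-- first order part of `trH` -/
def tt (x : M) (y : En n) (v : V) (p : Fin n → V) : V :=
  ∑ k, ∑ l, ∑ m, ((E.cm x y v)⁻¹ k l * christoffel (h.G x) y m k l) • p m

/-- the lower order part of the operator -/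
def bb (x : M) (y : En n) (v : V) (p : Fin n → V) : V :=
  -E.tt h x y v p + ∑ i, ∑ j, ((∑ k, ∑ l, (E.cm x y v)⁻¹ k l *
    (P.pd k (P.pd l fun z => E.c x z i j) y v + P.pd l (fun z => E.c x z i j) y (p k) +
      P.pd k (fun z => E.c x z i j) y (p l))) +
    fDT (E.cm x y v) (E.cm x y v)⁻¹ (E.p1 x y v p) (christoffel (h.G x) y)
      (fs1 (E.cm x y v)⁻¹ (E.p1 x y v p)) (dchr (h.G x) y) i j +
    E.c x y i j (E.tt h x y v p)) • E.e x y i j

variable {E h}

theorem pd_apply {c : En n → V →L[ℝ] ℝ} {f : En n → V} {y : En n} (hc : DifferentiableAt ℝ c y)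
    (hf : DifferentiableAt ℝ f y) (m : Fin n) :
    pderiv m (fun z => c z (f z)) y = P.pd m c y (f y) + c y (P.pd m f y) := by
  rw [pderiv, fderiv_clm_apply hc hf, add_comm]
  rfl

theorem opC_eq {x : M} {f : En n → V} {U : Set (En n)} {y : En n}
    (hG : IsRiemannianOn (E.Gf x f) U) (hs : U ⊆ tg n x) (hf : ContDiffOn ℝ ∞ f U) (hy : y ∈ U) :
    E.opC h x f y = P.Lop (E.cm x y (f y))⁻¹ f y + E.bb h x y (f y) (P.d1 f y) := by
  have hU := hG.isOpen
  have d : ∀ {F : Type} [NormedAddCommGroup F] [NormedSpace ℝ F] {g : En n → F},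
      ContDiffOn ℝ ∞ g U → ∀ z ∈ U, DifferentiableAt ℝ g z := fun hg z hz =>
    (hg.contDiffAt (hU.mem_nhds hz)).differentiableAt (by simp)
  have hc : ∀ i j, ContDiffOn ℝ ∞ (fun z => E.c x z i j) U := fun i j => (E.sc x i j).mono hs
  have h1 : ∀ z ∈ U, j1 (E.Gf x f) z = E.p1 x z (f z) (P.d1 f z) := fun z hz => by
    funext m i j
    exact pd_apply (d (hc i j) z hz) (d hf z hz) m
  have h2 : ∀ k l i j, j2 (E.Gf x f) y k l i j =
      (P.pd k (P.pd l fun z => E.c x z i j) y (f y) + P.pd l (fun z => E.c x z i j) y (P.pd k f y) +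
        P.pd k (fun z => E.c x z i j) y (P.pd l f y)) + E.c x y i j (P.pd k (P.pd l f) y) := by
    intro k l i j
    have h3 := d (P.contDiffOn_pd_top hU (hc i j) l) y hy
    have h4 := d (P.contDiffOn_pd_top hU hf l) y hy
    show pderiv k (pderiv l fun z => E.c x z i j (f z)) y = _
    rw [pd_congr_on k hU hy (g := fun z => P.pd l (fun z => E.c x z i j) z (f z) +
      E.c x z i j (P.pd l f z)) fun z hz => pd_apply (d (hc i j) z hz) (d hf z hz) l,
      pd_add k (h3.clm_apply (d hf y hy)) ((d (hc i j) y hy).clm_apply h4),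
      pd_apply h3 (d hf y hy), pd_apply (d (hc i j) y hy) h4]
    ring
  have h5 : trH (E.Gf x f) (h.G x) f y =
      P.Lop (E.cm x y (f y))⁻¹ f y - E.tt h x y (f y) (P.d1 f y) := rfl
  rw [opC, h5, bb, sub_eq_add_neg, add_assoc]
  congr 2
  refine Finset.sum_congr rfl fun i _ => Finset.sum_congr rfl fun j _ => ?_
  congr 1
  rw [DT_eq hG (riemOn_mono (h.isRiem x) hU hs) hy, h1 y hy]
  simp only [h2, map_add, map_neg, P.Lop, map_sum, map_smul, smul_eq_mul, mul_add,
    Finset.sum_add_distrib, P.d1, Gf]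
  ring

theorem sm_bb {X : Type*} [NormedAddCommGroup X] [NormedSpace ℝ X] {S : Set X} {x : M}
    {y : X → En n} {v : X → V} {p : X → Fin n → V} (hy : ContDiffOn ℝ ∞ y S)
    (hv : ContDiffOn ℝ ∞ v S) (hp : ∀ m, ContDiffOn ℝ ∞ (fun q => p q m) S)
    (hm : ∀ q ∈ S, y q ∈ tg n x) (hd : ∀ q ∈ S, (E.cm x (y q) (v q)).PosDef) :
    ContDiffOn ℝ ∞ (fun q => E.bb h x (y q) (v q) (p q)) S := by
  have hU := isOpen_tg (n := n) x
  have hH := h.isRiem x
  have c0 : ∀ i j, ContDiffOn ℝ ∞ (fun q => E.c x (y q) i j) S := fun i j =>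
    (E.sc x i j).comp hy hm
  have c1 : ∀ m i j, ContDiffOn ℝ ∞ (fun q => P.pd m (fun z => E.c x z i j) (y q)) S :=
    fun m i j => (P.contDiffOn_pd_top hU (E.sc x i j) m).comp hy hm
  have c2 : ∀ k l i j, ContDiffOn ℝ ∞ (fun q => P.pd k (P.pd l fun z => E.c x z i j) (y q)) S :=
    fun k l i j => (P.contDiffOn_pd_top hU (P.contDiffOn_pd_top hU (E.sc x i j) l) k).comp hy hm
  have hA : ∀ i j, ContDiffOn ℝ ∞ (fun q => E.cm x (y q) (v q) i j) S := fun i j =>
    (c0 i j).clm_apply hv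
  have hAi := contDiffOn_inv' hA fun q hq => (hd q hq).det_pos.ne'
  have hC : ∀ a b c, ContDiffOn ℝ ∞ (fun q => christoffel (h.G x) (y q) a b c) S := fun a b c =>
    (sm_chr hH a b c).comp hy hm
  have hdC : ∀ a b c d, ContDiffOn ℝ ∞ (fun q => dchr (h.G x) (y q) a b c d) S := fun a b c d =>
    (sm_pd hU (sm_chr hH b c d) a).comp hy hm
  have hP : ∀ a b c, ContDiffOn ℝ ∞ (fun q => E.p1 x (y q) (v q) (p q) a b c) S := fun a b c =>
    ((c1 a b c).clm_apply hv).add ((c0 b c).clm_apply (hp a))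
  have hT : ContDiffOn ℝ ∞ (fun q => E.tt h x (y q) (v q) (p q)) S :=
    ContDiffOn.sum fun k _ => ContDiffOn.sum fun l _ => ContDiffOn.sum fun m _ =>
      ((hAi k l).mul (hC m k l)).smul (hp m)
  refine hT.neg.add (ContDiffOn.sum fun i _ => ContDiffOn.sum fun j _ =>
    ContDiffOn.smul (f := fun q => _) ?_ ((E.se x i j).comp hy hm))
  refine (ContDiffOn.add ?_ (sm_fDT hA hAi hP hC (sm_fs1 hAi hP) hdC i j)).add
    ((c0 i j).clm_apply hT)
  exact ContDiffOn.sum fun k _ => ContDiffOn.sum fun l _ => (hAi k l).mul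
    ((((c2 k l i j).clm_apply hv).add ((c1 l i j).clm_apply (hp k))).add
      ((c1 k i j).clm_apply (hp l)))

variable (E h) in
/-- the operator is quasilinear parabolic -/
def qlop (I : Set ℝ) : P.QLOp n I E.O (fun _ => E.Op h) where
  a x q := (E.cm x q.2.1 q.2.2)⁻¹
  b x q := E.bb h x q.2.1.1 q.2.1.2 q.2.2
  sa x k l := contDiffOn_inv' (A := fun q : ℝ × En n × V => E.cm x q.2.1 q.2.2)
    (fun i j => ((E.sc x i j).comp (by fun_prop) fun q hq => hq.2.1).clm_apply (by fun_prop))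
    (fun q hq => ((posDef_iff hq.2.1 _).2 hq.2.2).det_pos.ne') k l
  sb x := sm_bb (by fun_prop) (by fun_prop) (fun m => by fun_prop) (fun q hq => hq.2.1.1)
    fun q hq => (posDef_iff hq.2.1.1 _).2 hq.2.1.2
  pos x t _ q hq := ((posDef_iff hq.1 _).2 hq.2).inv
  rep x t _ y hy u W hW hyW hu hO := by
    rw [Op_chart hW hu hO hy hyW]
    exact opC_eq (riem_rd hW hu hO x) inter_subset_left (sm_rd hu x) ⟨hy, hyW⟩

end Emb

end Crest.Agent.N207.B

end
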